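import Vale.Agent.P166F.Ent.Grad

/-!
Squared slopes increase inwards, stay below one, and approach one on large constant paths.
-/

namespace Vale.Agent.P166F

open MeasureTheory ProbabilityTheory Filter
open Vale.Agent.P157 Vale.Agent.P157.Low Vale.Agent.P166F.Chain
open scoped Topology

/-- The square of a tilted mean is at most the tilted mean of the square. -/
lemma ltilt_sq_le {U u : ℝ → ℝ} (hU : RSB.Lip 1 U) (hu : Measurable u) (hb : ∀ z, |u z| ≤ 1) (m s y : ℝ) :
    ltilt m s U u y ^ 2 ≤ ltilt m s U (fun z => u z ^ 2) y := by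
  have i0 := (wgt_step hU m y s).int
  have i1 := int_step hU hu hb m y s
  have i2 := int_step hU (hu.pow_const 2) (C := 1)
    (fun z => by rw [abs_pow]; exact pow_le_one₀ (abs_nonneg _) (hb z)) m y s
  have key := assoc (μ := gaussianReal 0 1) (w := fun z => Real.exp (m * U (y + Real.sqrt s * z)))
    (a := fun z => u (y + Real.sqrt s * z)) (b := fun z => u (y + Real.sqrt s * z))
    (fun z => (Real.exp_pos _).le) (fun z z' => mul_self_nonneg _) i0 i1 i1
    (i2.congr (Eventually.of_forall fun z => by ring))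
  simp only [mul_assoc, ← sq] at key
  have p := (wgt_step hU m y s).pos
  rw [ltilt_eq, ltilt_eq, div_pow, div_le_div_iff₀ (pow_pos p 2) p]
  nlinarith [mul_le_mul_of_nonneg_right key p.le]

/-- A tilted mean of values below one is below one. -/
lemma ltilt_lt_one {U F : ℝ → ℝ} (hU : RSB.Lip 1 U) (hF : Measurable F) (hb : ∀ z, |F z| ≤ 1)
    (h : ∀ z, F z < 1) (m s y : ℝ) : ltilt m s U F y < 1 := by
  have i0 := (wgt_step hU m y s).int
  have i1 := int_step hU hF hb m y s
  rw [ltilt_eq, div_lt_one (wgt_step hU m y s).pos, ← sub_pos, ← integral_sub i0 i1]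
  have hp : ∀ z, 0 < Real.exp (m * U (y + Real.sqrt s * z)) -
      Real.exp (m * U (y + Real.sqrt s * z)) * F (y + Real.sqrt s * z) := fun z =>
    sub_pos.2 (mul_lt_of_lt_one_right (Real.exp_pos _) (h _))
  rw [integral_pos_iff_support_of_nonneg (fun z => (hp z).le) (i0.sub i1),
    show Function.support (fun z => Real.exp (m * U (y + Real.sqrt s * z)) -
      Real.exp (m * U (y + Real.sqrt s * z)) * F (y + Real.sqrt s * z)) = Set.univ from
      Set.eq_univ_of_forall fun z => (hp z).ne']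
  simp

lemma cSlope_sq_lt_one : ∀ (ms : List ℝ) (Q : ℕ → ℝ), UnitExps ms → ∀ y, cSlope ms Q y ^ 2 < 1
  | [], _, _, y => by
    show Real.tanh y ^ 2 < 1
    rw [← sq_abs]; exact pow_lt_one₀ (abs_nonneg _) (Real.abs_tanh_lt_one y) two_ne_zero
  | _ :: ms, Q, h, y => by
    have hn := nice_chain ms (fun n => Q (n + 1)) h.tail
    exact (ltilt_sq_le hn.lip hn.meas hn.bd _ _ y).trans_lt
      (ltilt_lt_one hn.lip (hn.meas.pow_const 2) hn.sq_le_one (cSlope_sq_lt_one ms _ h.tail) _ _ y)

lemma cSq_lt_one : ∀ (ms : List ℝ) (Q : ℕ → ℝ) (j : ℕ), UnitExps ms → ∀ y, cSq ms Q j y < 1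
  | ms, Q, 0, h, y => by rw [cSq_zero]; exact cSlope_sq_lt_one ms Q h y
  | [], _, _ + 1, _, _ => zero_lt_one
  | _ :: ms, Q, j + 1, h, y => by
    obtain ⟨hme, hb, -⟩ := cSq_props ms (fun n => Q (n + 1)) j h.tail
    exact ltilt_lt_one (nice_chain ms _ h.tail).lip hme hb (cSq_lt_one ms _ j h.tail) _ _ y

lemma cSq_succ : ∀ (ms : List ℝ) (Q : ℕ → ℝ) (j : ℕ), UnitExps ms → j < ms.length →
    ∀ y, cSq ms Q j y ≤ cSq ms Q (j + 1) y
  | [], _, _, _, h, _ => absurd h (by simp)
  | _ :: ms, Q, 0, h, _, y => by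
    have hn := nice_chain ms (fun n => Q (n + 1)) h.tail
    simp only [cSq_zero, cSlope, cSq]
    exact ltilt_sq_le hn.lip hn.meas hn.bd _ _ y
  | _ :: ms, Q, j + 1, h, hl, y => by
    obtain ⟨a1, a2, -⟩ := cSq_props ms (fun n => Q (n + 1)) j h.tail
    obtain ⟨b1, b2, -⟩ := cSq_props ms (fun n => Q (n + 1)) (j + 1) h.tail
    exact ltilt_mono (nice_chain ms _ h.tail).lip a1 b1 a2 b2
      (cSq_succ ms _ j h.tail (by simpa using hl)) _ _ y

lemma cSlope_flat : ∀ (ms : List ℝ) (Q : ℕ → ℝ), UnitExps ms → (∀ n < ms.length, Q (n + 1) = Q n) →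
    cSlope ms Q = Real.tanh
  | [], _, _, _ => rfl
  | _ :: ms, Q, h, hQ => by
    have hn := nice_chain ms (fun n => Q (n + 1)) h.tail
    have e := cSlope_flat ms (fun n => Q (n + 1)) h.tail fun n hn => hQ (n + 1) (by simpa using hn)
    funext y
    simp only [cSlope, ltilt_eq, show Q 1 - Q 0 = 0 by rw [hQ 0 (by simp), sub_self], Real.sqrt_zero,
      zero_mul, add_zero, integral_const, probReal_univ, one_smul, e]
    exact mul_div_cancel_left₀ _ (Real.exp_pos _).ne'

variable {k : ℕ} {m : Fin (k + 1) → ℝ}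

lemma slopeSq_mem (hm : Levels m) (a : Fin (k + 1) → ℝ) (l : Fin (k + 1)) :
    0 ≤ slopeSq m a l ∧ slopeSq m a l < 1 := by
  rw [slopeSq_eq hm.unit a 0 l]
  exact ⟨cSq_nonneg _ _ _ (unitExps_expsList hm.unit) 0, cSq_lt_one _ _ _ (unitExps_expsList hm.unit) 0⟩

lemma slopeSq_mono (hm : Levels m) (a : Fin (k + 1) → ℝ) : Monotone (slopeSq m a) := by
  refine Fin.monotone_iff_le_succ.2 fun i => ?_
  rw [slopeSq_eq hm.unit a 0, slopeSq_eq hm.unit a 0]
  simp only [Fin.val_castSucc, Fin.val_succ]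
  exact cSq_succ _ _ _ (unitExps_expsList hm.unit) (by rw [length_expsList]; omega) 0

/-- On constant paths the squared slopes approach one. -/
lemma exists_slopeSq_gt (hm : Levels m) {q : ℝ} (hq : q < 1) :
    ∃ a : Fin (k + 1) → ℝ, (Monotone a ∧ ∀ l, 0 ≤ a l) ∧ ∀ l, q < slopeSq m a l := by
  have hlim : Tendsto (fun n : ℕ => ∫ z, (1 + (n : ℝ) * z ^ 2)⁻¹ ∂gaussianReal 0 1) atTop (𝓝 0) := by
    have h := tendsto_integral_of_dominated_convergence (μ := gaussianReal 0 1) (f := fun _ => (0 : ℝ))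
      (F := fun (n : ℕ) z => (1 + (n : ℝ) * z ^ 2)⁻¹) (fun _ => (1 : ℝ))
      (fun n => (by fun_prop : Measurable fun z : ℝ => (1 + (n : ℝ) * z ^ 2)⁻¹).aestronglyMeasurable)
      (integrable_const 1) (fun n => Eventually.of_forall fun z => by
        rw [Real.norm_eq_abs, abs_inv, abs_of_pos (by positivity)]
        exact inv_le_one_of_one_le₀ (le_add_of_nonneg_right (by positivity))) ?_
    · simpa using h
    have hne : ∀ᵐ z ∂gaussianReal 0 1, z ≠ (0 : ℝ) := by
      have := nullSingletonClass_gaussianReal (μ := 0) (v := 1) one_ne_zero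
      simp [ae_iff]
    filter_upwards [hne] with z hz
    exact tendsto_inv_atTop_zero.comp (tendsto_atTop_add_const_left _ _
      (tendsto_natCast_atTop_atTop.atTop_mul_const (by positivity)))
  obtain ⟨n, hn⟩ := (hlim.eventually_lt_const (sub_pos.2 hq)).exists
  set a : Fin (k + 1) → ℝ := fun _ => (n : ℝ)
  refine ⟨a, ⟨monotone_const, fun _ => by positivity⟩, fun l => ?_⟩
  refine lt_of_lt_of_le ?_ (slopeSq_mono hm a (Fin.zero_le l))
  rw [slopeSq_eq hm.unit a n]
  have hu := unitExps_expsList hm.unit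
  have e : expsList m = (0 : ℝ) :: (expsList m).drop 1 := by
    conv_lhs => rw [← List.drop_zero (l := expsList m),
      List.drop_eq_getElem_cons (by simp [expsList] : 0 < (expsList m).length)]
    congr 1
    simp [expsList, hm.zero]
  rw [e]
  simp only [Fin.val_zero, cSq, cSq_zero]
  rw [cSlope_flat _ _ (fun p hp => hu p (List.mem_of_mem_drop hp)) fun j hj => by
    simp only [cumVar, a, Nat.succ_ne_zero, if_false]; split_ifs <;> rfl]
  simp only [ltilt_eq, zero_mul, Real.exp_zero, one_mul, zero_add, integral_const, probReal_univ,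
    smul_eq_mul, mul_one, div_one]
  have hd : cumVar a n 1 - cumVar a n 0 = (n : ℝ) := by simp [cumVar, a]
  rw [hd]
  have hi : Integrable (fun z => (1 + (n : ℝ) * z ^ 2)⁻¹) (gaussianReal 0 1) :=
    (integrable_const (1 : ℝ)).mono' (by fun_prop : Measurable fun z : ℝ => (1 + (n : ℝ) * z ^ 2)⁻¹).aestronglyMeasurable
      (Eventually.of_forall fun z => by
        rw [Real.norm_eq_abs, abs_inv, abs_of_pos (by positivity)]
        exact inv_le_one_of_one_le₀ (le_add_of_nonneg_right (by positivity)))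
  have hi' : Integrable (fun z => Real.tanh (Real.sqrt n * z) ^ 2) (gaussianReal 0 1) :=
    (integrable_const (1 : ℝ)).mono' ((measurable_tanh.comp (measurable_const_mul _)).pow_const 2).aestronglyMeasurable
      (Eventually.of_forall fun z => (Real.norm_eq_abs _).trans_le (nice_logCosh.sq_le_one _))
  have hle : ∀ z, 1 - (1 + (n : ℝ) * z ^ 2)⁻¹ ≤ Real.tanh (Real.sqrt n * z) ^ 2 := fun z => by
    have hs : (n : ℝ) * z ^ 2 ≤ Real.sinh (Real.sqrt n * z) ^ 2 := by
      have e2 : (n : ℝ) * z ^ 2 = |Real.sqrt n * z| ^ 2 := by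
        rw [sq_abs, mul_pow, Real.sq_sqrt n.cast_nonneg]
      rw [e2, ← sq_abs (Real.sinh (Real.sqrt n * z)), Real.abs_sinh]
      exact pow_le_pow_left₀ (abs_nonneg _) (Real.self_le_sinh_iff.2 (abs_nonneg _)) 2
    rw [Real.tanh_eq_sinh_div_cosh, div_pow, Real.cosh_sq', le_div_iff₀ (by positivity)]
    have hc : (1 + (n : ℝ) * z ^ 2) * (1 + (n : ℝ) * z ^ 2)⁻¹ = 1 := mul_inv_cancel₀ (by positivity)
    nlinarith [mul_le_mul_of_nonneg_right hs (inv_nonneg.2 (by positivity : (0 : ℝ) ≤ 1 + (n : ℝ) * z ^ 2))]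
  have := integral_mono ((integrable_const 1).sub hi) hi' hle
  simp only [Pi.sub_apply] at this
  rw [integral_sub (integrable_const 1) hi] at this
  simp only [integral_const, probReal_univ, smul_eq_mul, mul_one] at this
  linarith

end Vale.Agent.P166F
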