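import Vale.Agent.P157.Low.ParisiX
import Vale.Agent.P157.Low.Stein

/-!
Gaussian averages of functions of time and space with exponential growth: continuity and
derivatives, the variance being a function of time.
-/

namespace Vale.Agent.P166F

open MeasureTheory ProbabilityTheory Filter Set
open Vale.Agent.P157.Low
open scoped Topology

/-- Continuous, of exponential growth in space, locally uniformly in time. -/
structure GB (g : ℝ → ℝ → ℝ) : Prop where
  cont : Continuous fun p : ℝ × ℝ => g p.1 p.2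
  bdd : ∀ t₀, ∃ A b, 0 ≤ b ∧ ∀ t, |t - t₀| ≤ 1 → ∀ x, |g t x| ≤ A * Real.exp (b * |x|)

lemma integrable_exp_abs (b : ℝ) :
    Integrable (fun z => Real.exp (b * |z|)) (gaussianReal 0 1) := by
  refine Integrable.mono' ((integrable_exp_mul_gaussianReal b).add (integrable_exp_mul_gaussianReal (-b)))
    (by fun_prop : Continuous fun z : ℝ => Real.exp (b * |z|)).aestronglyMeasurable
    (Eventually.of_forall fun z => ?_)
  rw [Real.norm_eq_abs, Real.abs_exp, Pi.add_apply]
  rcases abs_cases z with ⟨h, _⟩ | ⟨h, _⟩ <;> rw [h]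
  · linarith [Real.exp_pos (-b * z)]
  · rw [mul_neg, ← neg_mul]
    linarith [Real.exp_pos (b * z)]

namespace GB

variable {g g1 g2 gt : ℝ → ℝ → ℝ}

lemma cont_at (h : GB g) (t : ℝ) : Continuous (g t) :=
  h.cont.comp (by fun_prop : Continuous fun x : ℝ => (t, x))

lemma bdd_nonneg (h : GB g) (t₀ : ℝ) :
    ∃ A b, 0 ≤ A ∧ 0 ≤ b ∧ ∀ t, |t - t₀| ≤ 1 → ∀ x, |g t x| ≤ A * Real.exp (b * |x|) := by
  obtain ⟨A, b, hb, hA⟩ := h.bdd t₀
  refine ⟨|A|, b, abs_nonneg A, hb, fun t ht x => (hA t ht x).trans ?_⟩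
  exact mul_le_mul_of_nonneg_right (le_abs_self A) (Real.exp_pos _).le

lemma shift_bound (h : GB g) (t₀ y₀ D : ℝ) :
    ∃ A b, 0 ≤ A ∧ 0 ≤ b ∧ ∀ t y s, |t - t₀| ≤ 1 → |y - y₀| ≤ 1 → |s| ≤ D → ∀ z,
      |g t (y + s * z)| ≤ A * Real.exp (b * |z|) := by
  obtain ⟨A, b, hA0, hb, hA⟩ := h.bdd_nonneg t₀
  refine ⟨A * Real.exp (b * (|y₀| + 1)), b * |D|, by positivity, by positivity, fun t y s ht hy hs z => ?_⟩
  refine (hA t ht _).trans ?_
  rw [mul_assoc A, ← Real.exp_add]
  refine mul_le_mul_of_nonneg_left (Real.exp_le_exp.2 ?_) hA0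
  have h1 : |y| ≤ |y₀| + 1 := by linarith [abs_sub_abs_le_abs_sub y y₀]
  have h2 : |y + s * z| ≤ |y₀| + 1 + |D| * |z| := by
    refine (abs_add_le _ _).trans (add_le_add h1 ?_)
    rw [abs_mul]
    exact mul_le_mul_of_nonneg_right (hs.trans (le_abs_self D)) (abs_nonneg z)
  linarith [mul_le_mul_of_nonneg_left h2 hb]

lemma int (h : GB g) (t y s : ℝ) : Integrable (fun z => g t (y + s * z)) (gaussianReal 0 1) := by
  obtain ⟨A, b, -, -, hA⟩ := h.shift_bound t y |s|
  exact Integrable.mono' ((integrable_exp_abs b).const_mul A)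
    ((h.cont_at t).comp (by fun_prop : Continuous fun z : ℝ => y + s * z)).aestronglyMeasurable
    (Eventually.of_forall fun z => (Real.norm_eq_abs _).trans_le
      (hA t y s (by simp) (by simp) le_rfl z))

lemma cont_heat (h : GB g) {d : ℝ → ℝ} (hd : Continuous d) :
    Continuous fun p : ℝ × ℝ => heat (g p.1) (d p.1) p.2 := by
  rw [continuous_iff_continuousAt]
  intro p
  have hs : Continuous fun q : ℝ × ℝ => Real.sqrt (d q.1) := (hd.comp continuous_fst).sqrt
  obtain ⟨A, b, -, -, hA⟩ := h.shift_bound p.1 p.2 (Real.sqrt (d p.1) + 1)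
  have hev : ∀ᶠ q in 𝓝 p, |q.1 - p.1| < 1 ∧ |q.2 - p.2| < 1 ∧
      |Real.sqrt (d q.1) - Real.sqrt (d p.1)| < 1 := by
    have h1 : ∀ {φ : ℝ × ℝ → ℝ}, Continuous φ → ∀ᶠ q in 𝓝 p, |φ q - φ p| < 1 := fun {φ} hφ => by
      have := (hφ.tendsto p).eventually (Metric.ball_mem_nhds (φ p) one_pos)
      simpa [Real.dist_eq] using this
    exact (h1 continuous_fst).and ((h1 continuous_snd).and (h1 hs))
  refine continuousAt_of_dominated (bound := fun z => A * Real.exp (b * |z|))
    (Eventually.of_forall fun q => (h.int q.1 q.2 _).aestronglyMeasurable) ?_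
    ((integrable_exp_abs b).const_mul A) (Eventually.of_forall fun z => ?_)
  · filter_upwards [hev] with q hq
    refine Eventually.of_forall fun z => (Real.norm_eq_abs _).trans_le
      (hA q.1 q.2 _ hq.1.le hq.2.1.le ?_ z)
    rw [abs_of_nonneg (Real.sqrt_nonneg _)]
    linarith [(abs_lt.1 hq.2.2).2]
  · exact (h.cont.comp (continuous_fst.prodMk (continuous_snd.add (hs.mul continuous_const)))).continuousAt

lemma dy (h : GB g) (h1 : GB g1) {t : ℝ} (hd : ∀ x, HasDerivAt (g t) (g1 t x) x) (v y : ℝ) :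
    HasDerivAt (heat (g t) v) (heat (g1 t) v y) y := by
  obtain ⟨A, b, -, -, hA⟩ := h1.shift_bound t y |Real.sqrt v|
  refine (hasDerivAt_integral_of_dominated_loc_of_deriv_le (μ := gaussianReal 0 1)
    (F := fun x z => g t (x + Real.sqrt v * z)) (F' := fun x z => g1 t (x + Real.sqrt v * z))
    (bound := fun z => A * Real.exp (b * |z|)) (s := Metric.ball y 1) (Metric.ball_mem_nhds y one_pos)
    (Eventually.of_forall fun x => (h.int t x _).aestronglyMeasurable) (h.int t y _)
    (h1.int t y _).aestronglyMeasurable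
    (Eventually.of_forall fun z x hx => (Real.norm_eq_abs _).trans_le
      (hA t x _ (by simp) ?_ le_rfl z))
    ((integrable_exp_abs b).const_mul A)
    (Eventually.of_forall fun z x _ => (hd _).comp_add_const x (Real.sqrt v * z))).2
  rw [Metric.mem_ball, Real.dist_eq] at hx
  exact hx.le

/-- The chain rule along a curve. -/
lemma comp_deriv (hd1 : ∀ s x, HasDerivAt (g s) (g1 s x) x)
    (hc : Continuous fun p : ℝ × ℝ => g1 p.1 p.2) {t a : ℝ} {φ : ℝ → ℝ} {φ' : ℝ}
    (hφ : HasDerivAt φ φ' t) (ht : HasDerivAt (fun s => g s (φ t)) a t) :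
    HasDerivAt (fun s => g s (φ s)) (a + g1 t (φ t) * φ') t := by
  set x₀ := φ t
  set c := g1 t x₀
  have hrest : HasDerivAt (fun s => g s (φ s) - g s x₀ - c * (φ s - x₀)) 0 t := by
    rw [hasDerivAt_iff_isLittleO]
    simp only [x₀, sub_self, mul_zero, sub_zero, smul_zero]
    have hO : (fun s => φ s - φ t) =O[𝓝 t] fun s => s - t :=
      hφ.differentiableAt.isBigO_sub
    refine Asymptotics.IsLittleO.trans_isBigO ?_ hO
    refine Asymptotics.isLittleO_iff.2 fun ε hε => ?_
    have hmem : {p : ℝ × ℝ | |g1 p.1 p.2 - c| < ε} ∈ 𝓝 (t, x₀) :=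
      (isOpen_lt (hc.sub continuous_const).abs continuous_const).mem_nhds (by simp [c, hε])
    obtain ⟨δ, hδ, hsub⟩ := Metric.mem_nhds_iff.1 hmem
    filter_upwards [Metric.ball_mem_nhds t hδ,
      hφ.continuousAt.eventually (Metric.ball_mem_nhds x₀ hδ)] with s hs hsφ
    have hmv := Convex.norm_image_sub_le_of_norm_hasDerivWithin_le (f := fun x => g s x - c * x)
      (f' := fun x => g1 s x - c) (C := ε)
      (fun x _ => ((hd1 s x).fun_sub ((hasDerivAt_id' x).const_mul c)).hasDerivWithinAt.congr_deriv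
        (by simp))
      (fun x hx => (Real.norm_eq_abs _).trans_le (le_of_lt (hsub (show (s, x) ∈ Metric.ball (t, x₀) δ by
        rw [Metric.mem_ball, Prod.dist_eq]
        exact max_lt (Metric.mem_ball.1 hs) (Metric.mem_ball.1 hx)))))
      (convex_ball x₀ δ) (Metric.mem_ball_self hδ) hsφ
    have e : g s (φ s) - c * φ s - (g s x₀ - c * x₀) = g s (φ s) - g s x₀ - c * (φ s - x₀) := by ring
    rwa [e] at hmv
  have h := (ht.add ((hφ.sub_const x₀).const_mul c)).add hrest
  simp only [add_zero] at h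
  exact h.congr_of_eventuallyEq (Eventually.of_forall fun s => by simp)

/-- Derivative in time of a Gaussian average, with the variance moving at speed `δ`. -/
lemma dt (h : GB g) (h1 : GB g1) (h2 : GB g2) (ht' : GB gt)
    (hd1 : ∀ s x, HasDerivAt (g s) (g1 s x) x) (hd2 : ∀ s x, HasDerivAt (g1 s) (g2 s x) x)
    (hdt : ∀ s ∈ Ioo (0 : ℝ) 1, ∀ x, HasDerivAt (fun u => g u x) (gt s x) s)
    {d : ℝ → ℝ} (hdc : Continuous d) {δ : ℝ} (hd : ∀ s ∈ Ioo (0 : ℝ) 1, HasDerivAt d δ s)
    (hpos : δ = 0 ∨ ∀ s ∈ Ioo (0 : ℝ) 1, 0 < d s) {t : ℝ} (ht : t ∈ Ioo (0 : ℝ) 1) (y : ℝ) :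
    HasDerivAt (fun s => heat (g s) (d s) y)
      (heat (gt t) (d t) y + δ / 2 * heat (g2 t) (d t) y) t := by
  have hsqrt : ∀ s ∈ Ioo (0 : ℝ) 1,
      HasDerivAt (fun u => Real.sqrt (d u)) (δ / (2 * Real.sqrt (d s))) s := fun s hs => by
    rcases hpos with rfl | hp
    · have : ∀ᶠ u in 𝓝 s, Real.sqrt (d u) = Real.sqrt (d s) := by
        filter_upwards [Ioo_mem_nhds hs.1 hs.2] with u hu
        rw [IsOpen.is_const_of_deriv_eq_zero isOpen_Ioo (convex_Ioo 0 1).isPreconnected
          (fun v hv => (hd v hv).differentiableAt.differentiableWithinAt)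
          (fun v hv => (hd v hv).deriv) hu hs]
      simpa using (hasDerivAt_const s (Real.sqrt (d s))).congr_of_eventuallyEq this
    · exact (hd s hs).sqrt (hp s hs).ne'
  obtain ⟨M, hM⟩ : ∃ M, ∀ᶠ s in 𝓝 t, |δ / (2 * Real.sqrt (d s))| ≤ M := by
    rcases hpos with rfl | hp
    · exact ⟨0, Eventually.of_forall fun s => by simp⟩
    · refine ⟨|δ / (2 * Real.sqrt (d t))| + 1, ?_⟩
      have hc : ContinuousAt (fun s => |δ / (2 * Real.sqrt (d s))|) t :=
        (continuousAt_const.div (continuousAt_const.mul hdc.sqrt.continuousAt)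
          (mul_pos two_pos (Real.sqrt_pos.2 (hp t ht))).ne').abs
      filter_upwards [hc.eventually (Iio_mem_nhds (lt_add_one _))] with s hs using le_of_lt hs
  have hS : ∀ᶠ s in 𝓝 t, |δ / (2 * Real.sqrt (d s))| ≤ M ∧ s ∈ Ioo (0 : ℝ) 1 ∧
      Real.sqrt (d s) < Real.sqrt (d t) + 1 :=
    hM.and (Eventually.and (Ioo_mem_nhds ht.1 ht.2)
      (hdc.sqrt.continuousAt.eventually (Iio_mem_nhds (lt_add_one _))))
  obtain ⟨A, b, hA0, hb, hA⟩ := ht'.shift_bound t y (Real.sqrt (d t) + 1)
  obtain ⟨A', b', hA0', hb', hA'⟩ := h1.shift_bound t y (Real.sqrt (d t) + 1)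
  set c := fun s => δ / (2 * Real.sqrt (d s))
  have hM0 : 0 ≤ M := (abs_nonneg _).trans hS.self_of_nhds.1
  have hder := (hasDerivAt_integral_of_dominated_loc_of_deriv_le (μ := gaussianReal 0 1)
    (F := fun s z => g s (y + Real.sqrt (d s) * z))
    (F' := fun s z => gt s (y + Real.sqrt (d s) * z) + g1 s (y + Real.sqrt (d s) * z) * (c s * z))
    (bound := fun z => A * Real.exp (b * |z|) + A' * M * Real.exp ((b' + 1) * |z|))
    (s := {s | |δ / (2 * Real.sqrt (d s))| ≤ M ∧ s ∈ Ioo (0 : ℝ) 1 ∧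
      Real.sqrt (d s) < Real.sqrt (d t) + 1}) hS
    (Eventually.of_forall fun s => (h.int s y _).aestronglyMeasurable) (h.int t y _)
    ((((ht'.cont_at t).comp (by fun_prop)).add (((h1.cont_at t).comp (by fun_prop)).mul
      (by fun_prop : Continuous fun z : ℝ => c t * z))).aestronglyMeasurable)
    (Eventually.of_forall fun z s hs => ?_)
    (((integrable_exp_abs b).const_mul A).add ((integrable_exp_abs (b' + 1)).const_mul (A' * M)))
    (Eventually.of_forall fun z s hs => ?_)).2
  rotate_left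
  · have hst : |s - t| ≤ 1 := abs_le.2 ⟨by linarith [hs.2.1.1, ht.2], by linarith [hs.2.1.2, ht.1]⟩
    have hsd : |Real.sqrt (d s)| ≤ Real.sqrt (d t) + 1 := by
      rw [abs_of_nonneg (Real.sqrt_nonneg _)]; exact hs.2.2.le
    refine (norm_add_le _ _).trans (add_le_add ((Real.norm_eq_abs _).trans_le
      (hA s y _ hst (by simp) hsd z)) ?_)
    rw [Real.norm_eq_abs, abs_mul, abs_mul, add_one_mul, Real.exp_add]
    have hz : |c s| * |z| ≤ M * Real.exp |z| :=
      mul_le_mul hs.1 ((le_add_of_nonneg_right zero_le_one).trans (Real.add_one_le_exp _))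
        (abs_nonneg z) hM0
    refine (mul_le_mul (hA' s y _ hst (by simp) hsd z) hz (by positivity)
      (by positivity)).trans (le_of_eq ?_)
    ring
  · exact comp_deriv hd1 h1.cont (((hsqrt s hs.2.1).mul_const z).const_add y) (hdt s hs.2.1 _)
  have i1 := ht'.int t y (Real.sqrt (d t))
  have i2 : Integrable (fun z => z * g1 t (y + Real.sqrt (d t) * z)) (gaussianReal 0 1) := by
    refine Integrable.mono' ((integrable_exp_abs (b' + 1)).const_mul A')
      ((continuous_id.mul ((h1.cont_at t).comp (by fun_prop))).aestronglyMeasurable)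
      (Eventually.of_forall fun z => ?_)
    rw [Real.norm_eq_abs, abs_mul, add_one_mul, Real.exp_add]
    have := hA' t y _ (by simp) (by simp) (by
      rw [abs_of_nonneg (Real.sqrt_nonneg _)]; linarith : |Real.sqrt (d t)| ≤ Real.sqrt (d t) + 1) z
    calc |z| * |g1 t (y + Real.sqrt (d t) * z)| ≤ Real.exp |z| * (A' * Real.exp (b' * |z|)) :=
          mul_le_mul ((le_add_of_nonneg_right zero_le_one).trans (Real.add_one_le_exp _)) this
            (abs_nonneg _) (Real.exp_pos _).le
      _ = A' * (Real.exp (b' * |z|) * Real.exp |z|) := by ring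
  have hst : ∫ z, z * g1 t (y + Real.sqrt (d t) * z) ∂gaussianReal 0 1 =
      Real.sqrt (d t) * ∫ z, g2 t (y + Real.sqrt (d t) * z) ∂gaussianReal 0 1 := by
    rw [← integral_const_mul]
    have i3 := i2.congr (Eventually.of_forall fun z => mul_comm z (g1 t (y + Real.sqrt (d t) * z)))
    rw [show (fun z => z * g1 t (y + Real.sqrt (d t) * z)) = fun z => g1 t (y + Real.sqrt (d t) * z) * z from
      funext fun z => mul_comm _ _]
    refine stein_real (fun z => ?_) (h1.int t y _) ((h2.int t y _).const_mul _) i3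
    have := (hd2 t (y + Real.sqrt (d t) * z)).comp z (((hasDerivAt_id z).const_mul _).const_add y)
    exact this.congr_deriv (by simp [mul_comm])
  refine hder.congr_deriv ?_
  have e : ∀ z, g1 t (y + Real.sqrt (d t) * z) * (c t * z) =
      c t * (z * g1 t (y + Real.sqrt (d t) * z)) := fun z => by ring
  simp only [e]
  rw [integral_add i1 (i2.const_mul _), integral_const_mul, hst]
  simp only [heat, c]
  congr 1
  rcases hpos with rfl | hp
  · simp
  · have := (Real.sqrt_pos.2 (hp t ht)).ne'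
    field_simp

end GB

end Vale.Agent.P166F
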