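import Vale.Agent.P157.Low.CascadeUp
import Vale.Agent.P166N.Mono
import Vale.Agent.P166F.Ent.Heat

/-!
One tilted Gaussian kernel: integrability, order and correlation.
-/

namespace Vale.Agent.P166F

open MeasureTheory ProbabilityTheory Filter Set
open Vale.Agent.P157.Low

/-- Similarly ordered functions are positively correlated under every weight. -/
lemma assoc {Z : Type} [MeasurableSpace Z] {μ : Measure Z} [IsProbabilityMeasure μ] {w a b : Z → ℝ}
    (hw : ∀ z, 0 ≤ w z) (hab : ∀ z z', 0 ≤ (a z - a z') * (b z - b z')) (iw : Integrable w μ)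
    (ia : Integrable (fun z => w z * a z) μ) (ib : Integrable (fun z => w z * b z) μ)
    (iab : Integrable (fun z => w z * a z * b z) μ) :
    (∫ z, w z * a z ∂μ) * (∫ z, w z * b z ∂μ) ≤ (∫ z, w z ∂μ) * ∫ z, w z * a z * b z ∂μ := by
  set W := ∫ z, w z ∂μ
  set A := ∫ z, w z * a z ∂μ
  set B := ∫ z, w z * b z ∂μ
  set C := ∫ z, w z * a z * b z ∂μ
  have h1 : ∀ z, 0 ≤ w z * a z * b z * W - w z * a z * B - w z * b z * A + w z * C := fun z => by
    have e : ∀ z', w z * w z' * ((a z - a z') * (b z - b z')) =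
        w z * a z * b z * w z' - w z * a z * (w z' * b z') - w z * b z * (w z' * a z') +
          w z * (w z' * a z' * b z') := fun z' => by ring
    have h : 0 ≤ ∫ z', w z * w z' * ((a z - a z') * (b z - b z')) ∂μ :=
      integral_nonneg fun z' => mul_nonneg (mul_nonneg (hw z) (hw z')) (hab z z')
    simp only [e] at h
    rw [integral_add (((iw.const_mul _).sub' (ib.const_mul _)).sub' (ia.const_mul _)) (iab.const_mul _),
      integral_sub ((iw.const_mul _).sub' (ib.const_mul _)) (ia.const_mul _),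
      integral_sub (iw.const_mul _) (ib.const_mul _)] at h
    simpa only [integral_const_mul] using h
  have h : 0 ≤ ∫ z, (w z * a z * b z * W - w z * a z * B - w z * b z * A + w z * C) ∂μ :=
    integral_nonneg h1
  rw [integral_add (((iab.mul_const _).sub' (ia.mul_const _)).sub' (ib.mul_const _)) (iw.mul_const _),
    integral_sub ((iab.mul_const _).sub' (ia.mul_const _)) (ib.mul_const _),
    integral_sub (iab.mul_const _) (ia.mul_const _)] at h
  simp only [integral_mul_const] at h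
  linarith

/-- A potential: continuous, growing at most linearly. -/
structure Pot (U : ℝ → ℝ) : Prop where
  cont : Continuous U
  grow : ∃ M, ∀ x, |U x| ≤ M + |x|

variable {U θ θ' : ℝ → ℝ} {m d B : ℝ}

/-- A constant family. -/
lemma GB.const_fam {g : ℝ → ℝ} (hg : Continuous g) {A b : ℝ} (hb : 0 ≤ b)
    (h : ∀ x, |g x| ≤ A * Real.exp (b * |x|)) : GB fun _ => g :=
  ⟨hg.comp continuous_snd, fun _ => ⟨A, b, hb, fun _ _ => h⟩⟩

lemma Pot.gb_wgt (hU : Pot U) (hm : 0 ≤ m) (hθ : Continuous θ) (hB : ∀ x, |θ x| ≤ B) :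
    GB fun _ x => Real.exp (m * U x) * θ x := by
  obtain ⟨M, hM⟩ := hU.grow
  refine GB.const_fam ((hU.cont.const_mul m).rexp.mul hθ) hm (A := Real.exp (m * M) * B) fun x => ?_
  rw [abs_mul, Real.abs_exp, mul_right_comm, ← Real.exp_add]
  refine mul_le_mul (Real.exp_le_exp.2 ?_) (hB x) (abs_nonneg _) (Real.exp_pos _).le
  rw [← mul_add]
  exact mul_le_mul_of_nonneg_left ((le_abs_self _).trans (hM x)) hm

lemma Pot.gb_one (hU : Pot U) (hm : 0 ≤ m) : GB fun _ x => Real.exp (m * U x) := by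
  simpa using hU.gb_wgt hm (θ := fun _ => 1) continuous_const (B := 1) fun _ => by simp

lemma Pot.int_wgt (hU : Pot U) (hm : 0 ≤ m) (hθ : Continuous θ) (hB : ∀ x, |θ x| ≤ B) (y s : ℝ) :
    Integrable (fun z => Real.exp (m * U (y + s * z)) * θ (y + s * z)) (gaussianReal 0 1) :=
  (hU.gb_wgt hm hθ hB).int 0 y s

lemma Pot.int_exp (hU : Pot U) (hm : 0 ≤ m) (y s : ℝ) :
    Integrable (fun z => Real.exp (m * U (y + s * z))) (gaussianReal 0 1) :=
  (hU.gb_one hm).int 0 y s

lemma Pot.pos (hU : Pot U) (hm : 0 ≤ m) (d y : ℝ) : 0 < heat (fun x => Real.exp (m * U x)) d y :=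
  integral_exp_pos (hU.int_exp hm y _)

lemma insStep_zero (d : ℝ) (U θ : ℝ → ℝ) : insStep 0 d U θ = heat θ d := by
  funext y
  simp [insStep, heat_const]

lemma insStep_const (hU : Pot U) (hm : 0 ≤ m) (d c y : ℝ) : insStep m d U (fun _ => c) y = c := by
  have h := hU.pos hm d y
  simp only [insStep, heat, integral_mul_const] at h ⊢
  field_simp

lemma insStep_le (hU : Pot U) (hm : 0 ≤ m) (hθ : Continuous θ) (hB : ∀ x, |θ x| ≤ B)
    (hθ' : Continuous θ') {B' : ℝ} (hB' : ∀ x, |θ' x| ≤ B') (hle : ∀ x, θ x ≤ θ' x) (d y : ℝ) :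
    insStep m d U θ y ≤ insStep m d U θ' y :=
  div_le_div_of_nonneg_right (integral_mono (hU.int_wgt hm hθ hB y _) (hU.int_wgt hm hθ' hB' y _)
    fun z => mul_le_mul_of_nonneg_left (hle _) (Real.exp_pos _).le) (hU.pos hm d y).le

lemma abs_insStep_le (hU : Pot U) (hm : 0 ≤ m) (hθ : Continuous θ) (hB : ∀ x, |θ x| ≤ B) (d y : ℝ) :
    |insStep m d U θ y| ≤ B := by
  have hc : ∀ c : ℝ, Continuous fun _ : ℝ => c := fun _ => continuous_const
  rw [abs_le]
  constructor
  · rw [← insStep_const hU hm d (-B) y]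
    exact insStep_le hU hm (hc _) (fun _ => le_rfl) hθ hB (fun x => (abs_le.1 (hB x)).1) d y
  · rw [← insStep_const hU hm d B y]
    exact insStep_le hU hm hθ hB (hc _) (fun _ => le_rfl) (fun x => (abs_le.1 (hB x)).2) d y

lemma heat_neg {g : ℝ → ℝ} (hg : ∀ x, g (-x) = g x) (d y : ℝ) : heat g d (-y) = heat g d y := by
  simp only [heat]
  rw [← Vale.Agent.P166N.integral_gauss_neg (fun z => g (y + Real.sqrt d * z))]
  refine integral_congr_ae (Eventually.of_forall fun z => ?_)
  show g (-y + Real.sqrt d * z) = g (y + Real.sqrt d * -z)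
  rw [← hg (-y + Real.sqrt d * z)]
  congr 1
  ring

end Vale.Agent.P166F
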