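import Vale.Agent.P166F.Ent.Assoc

/-!
Convex even potentials depending on time, with their derivatives, and one tilted level applied to them.
-/

namespace Vale.Agent.P166F

open MeasureTheory ProbabilityTheory Filter Set
open Vale.Agent.P157.Low
open scoped Topology

/-- A family of convex even potentials with bounded derivatives. -/
structure Fam where
  U : ℝ → ℝ → ℝ
  U1 : ℝ → ℝ → ℝ
  U2 : ℝ → ℝ → ℝ
  Ut : ℝ → ℝ → ℝ
  cont : Continuous fun p : ℝ × ℝ => U p.1 p.2
  cont1 : Continuous fun p : ℝ × ℝ => U1 p.1 p.2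
  cont2 : Continuous fun p : ℝ × ℝ => U2 p.1 p.2
  contt : Continuous fun p : ℝ × ℝ => Ut p.1 p.2
  d1 : ∀ t x, HasDerivAt (U t) (U1 t x) x
  d2 : ∀ t x, HasDerivAt (U1 t) (U2 t x) x
  dt : ∀ t ∈ Ioo (0 : ℝ) 1, ∀ x, HasDerivAt (fun s => U s x) (Ut t x) t
  even : ∀ t x, U t (-x) = U t x
  one : ∀ t x, |U1 t x| ≤ 1
  nn : ∀ t x, 0 ≤ U2 t x
  bdd : ∃ B, ∀ t x, U2 t x ≤ B ∧ |Ut t x| ≤ B

namespace Fam

variable (F : Fam) {m δ : ℝ} {d : ℝ → ℝ} {θ : ℝ → ℝ → ℝ} {B : ℝ}

lemma lip (t x y : ℝ) : |F.U t y - F.U t x| ≤ |y - x| := by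
  have h := Convex.norm_image_sub_le_of_norm_hasDerivWithin_le
    (fun z _ => (F.d1 t z).hasDerivWithinAt) (fun z _ => (Real.norm_eq_abs _).trans_le (F.one t z))
    convex_univ (mem_univ x) (mem_univ y)
  simpa [Real.norm_eq_abs] using h

lemma growth (t₀ : ℝ) : ∃ M, 0 ≤ M ∧ ∀ t, |t - t₀| ≤ 1 → ∀ x, |F.U t x| ≤ M + |x| := by
  obtain ⟨M, hM⟩ := (isCompact_Icc (a := t₀ - 1) (b := t₀ + 1)).exists_bound_of_continuousOn
    (F.cont.comp (by fun_prop : Continuous fun t : ℝ => (t, (0 : ℝ)))).continuousOn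
  refine ⟨|M|, abs_nonneg M, fun t ht x => ?_⟩
  have h := hM t ⟨by linarith [(abs_le.1 ht).1], by linarith [(abs_le.1 ht).2]⟩
  have h' := F.lip t 0 x
  simp only [Function.comp_apply, Real.norm_eq_abs, sub_zero] at h h'
  linarith [abs_sub_abs_le_abs_sub (F.U t x) (F.U t 0), le_abs_self M]

lemma pot (t : ℝ) : Pot (F.U t) := by
  obtain ⟨M, -, hM⟩ := F.growth t
  exact ⟨continuous_iff_continuousAt.2 fun x => (F.d1 t x).continuousAt, M, hM t (by simp)⟩

lemma gb_U : GB F.U := by
  refine ⟨F.cont, fun t₀ => ?_⟩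
  obtain ⟨M, hM0, hM⟩ := F.growth t₀
  refine ⟨M + 1, 1, zero_le_one, fun t ht x => (hM t ht x).trans ?_⟩
  rw [one_mul, add_one_mul]
  have := mul_le_mul_of_nonneg_left (Real.one_le_exp (abs_nonneg x)) hM0
  linarith [Real.add_one_le_exp |x|]

lemma gb_wgt (hm : 0 ≤ m) (hθ : Continuous fun p : ℝ × ℝ => θ p.1 p.2) (hB : ∀ t x, |θ t x| ≤ B) :
    GB fun t x => Real.exp (m * F.U t x) * θ t x := by
  refine ⟨((F.cont.const_mul m).rexp).mul hθ, fun t₀ => ?_⟩
  obtain ⟨M, -, hM⟩ := F.growth t₀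
  refine ⟨Real.exp (m * M) * B, m, hm, fun t ht x => ?_⟩
  rw [abs_mul, Real.abs_exp, mul_right_comm, ← Real.exp_add]
  refine mul_le_mul (Real.exp_le_exp.2 ?_) (hB t x) (abs_nonneg _) (Real.exp_pos _).le
  rw [← mul_add]
  exact mul_le_mul_of_nonneg_left ((le_abs_self _).trans (hM t ht x)) hm

lemma gb_exp (hm : 0 ≤ m) : GB fun t x => Real.exp (m * F.U t x) := by
  simpa using F.gb_wgt hm (θ := fun _ _ => 1) continuous_const (B := 1) fun _ _ => by simp

lemma gb_bdd (hθ : Continuous fun p : ℝ × ℝ => θ p.1 p.2) (hB : ∀ t x, |θ t x| ≤ B) : GB θ :=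
  ⟨hθ, fun _ => ⟨B, 0, le_rfl, fun t _ x => by simpa using hB t x⟩⟩

lemma cont_insStep (hm : 0 ≤ m) (hd : Continuous d) (hθ : Continuous fun p : ℝ × ℝ => θ p.1 p.2)
    (hB : ∀ t x, |θ t x| ≤ B) :
    Continuous fun p : ℝ × ℝ => insStep m (d p.1) (F.U p.1) (θ p.1) p.2 :=
  ((F.gb_wgt hm hθ hB).cont_heat hd).div ((F.gb_exp hm).cont_heat hd) fun p =>
    ((F.pot p.1).pos hm _ _).ne'

/-- The curvature seen by a level of exponent `m`. -/
noncomputable def th2 (m : ℝ) (t x : ℝ) : ℝ := F.U2 t x + m * F.U1 t x ^ 2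

lemma cont_th2 (m : ℝ) : Continuous fun p : ℝ × ℝ => F.th2 m p.1 p.2 :=
  F.cont2.add ((F.cont1.pow 2).const_mul m)

lemma sq_le_one (t x : ℝ) : F.U1 t x ^ 2 ≤ 1 := by
  rw [← sq_abs]; exact pow_le_one₀ (abs_nonneg _) (F.one t x)

lemma bdd_th2 (hm : 0 ≤ m) {B : ℝ} (hB : ∀ t x, F.U2 t x ≤ B) (t x : ℝ) : |F.th2 m t x| ≤ B + m := by
  have h1 := mul_nonneg hm (sq_nonneg (F.U1 t x))
  rw [th2, abs_of_nonneg (add_nonneg (F.nn t x) h1)]
  exact add_le_add (hB t x) (mul_le_of_le_one_right hm (F.sq_le_one t x))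

lemma deriv_wgt (hm : 0 ≤ m) (t v y : ℝ) :
    HasDerivAt (heat (fun x => Real.exp (m * F.U t x)) v)
      (m * heat (fun x => Real.exp (m * F.U t x) * F.U1 t x) v y) y := by
  have h := GB.dy (F.gb_exp hm) (F.gb_wgt hm (θ := fun t x => m * F.U1 t x) (B := m)
    (F.cont1.const_mul m) (fun t x => by
      rw [abs_mul, abs_of_nonneg hm]; exact mul_le_of_le_one_right hm (F.one t x)))
    (t := t) (fun x => ((F.d1 t x).const_mul m).exp) v y
  refine h.congr_deriv ?_
  simp only [heat]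
  rw [← integral_const_mul]
  exact integral_congr_ae (Eventually.of_forall fun z => by ring)

lemma deriv_pot (hm : 0 ≤ m) (t v y : ℝ) :
    HasDerivAt (potStep m v (F.U t)) (insStep m v (F.U t) (F.U1 t) y) y := by
  rcases eq_or_lt_of_le hm with rfl | hm'
  · rw [insStep_zero, show potStep 0 v (F.U t) = heat (F.U t) v by simp [potStep]]
    exact GB.dy F.gb_U (gb_bdd F.cont1 F.one) (F.d1 t) v y
  · have h := (((F.deriv_wgt hm t v y).log ((F.pot t).pos hm v y).ne')).div_const m
    have e : potStep m v (F.U t) = fun y => Real.log (heat (fun x => Real.exp (m * F.U t x)) v y) / m := by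
      simp [potStep, hm'.ne']
    rw [e]
    refine h.congr_deriv ?_
    simp only [insStep]
    field_simp

lemma deriv_ins (hm : 0 ≤ m) (t v y : ℝ) :
    HasDerivAt (insStep m v (F.U t) (F.U1 t))
      (insStep m v (F.U t) (F.th2 m t) y - m * insStep m v (F.U t) (F.U1 t) y ^ 2) y := by
  obtain ⟨B, hB⟩ := F.bdd
  have hN := GB.dy (F.gb_wgt hm F.cont1 F.one)
    (F.gb_wgt hm (F.cont_th2 m) (F.bdd_th2 hm fun t x => (hB t x).1)) (t := t) (fun x =>
      (((F.d1 t x).const_mul m).exp.mul (F.d2 t x)).congr_deriv (by simp only [th2]; ring)) v y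
  refine (hN.div (F.deriv_wgt hm t v y) ((F.pot t).pos hm v y).ne').congr_deriv ?_
  simp only [insStep]
  have := ((F.pot t).pos hm v y).ne'
  field_simp

lemma deriv_time (hm : 0 ≤ m) (hdc : Continuous d) (hd : ∀ s ∈ Ioo (0 : ℝ) 1, HasDerivAt d δ s)
    (hpos : δ = 0 ∨ ∀ s ∈ Ioo (0 : ℝ) 1, 0 < d s) {t : ℝ} (ht : t ∈ Ioo (0 : ℝ) 1) (y : ℝ) :
    HasDerivAt (fun s => potStep m (d s) (F.U s) y)
      (insStep m (d t) (F.U t) (F.Ut t) y + δ / 2 * insStep m (d t) (F.U t) (F.th2 m t) y) t := by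
  obtain ⟨B, hB⟩ := F.bdd
  have hU2 : ∀ t x, |F.U2 t x| ≤ B := fun t x => by rw [abs_of_nonneg (F.nn t x)]; exact (hB t x).1
  rcases eq_or_lt_of_le hm with rfl | hm'
  · have e : (fun s => potStep 0 (d s) (F.U s) y) = fun s => heat (F.U s) (d s) y := by
      funext s; simp [potStep]
    have e2 : F.th2 0 t = F.U2 t := by funext x; simp [th2]
    rw [e, insStep_zero, insStep_zero, e2]
    exact GB.dt F.gb_U (gb_bdd F.cont1 F.one) (gb_bdd F.cont2 hU2)
      (gb_bdd F.contt fun t x => (hB t x).2) F.d1 F.d2 F.dt hdc hd hpos ht y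
  · have h := GB.dt (g := fun s x => Real.exp (m * F.U s x))
      (g1 := fun s x => Real.exp (m * F.U s x) * (m * F.U1 s x))
      (g2 := fun s x => Real.exp (m * F.U s x) * (m * F.th2 m s x))
      (gt := fun s x => Real.exp (m * F.U s x) * (m * F.Ut s x)) (F.gb_exp hm)
      (F.gb_wgt hm (B := m) (F.cont1.const_mul m) (fun t x => by
        rw [abs_mul, abs_of_nonneg hm]; exact mul_le_of_le_one_right hm (F.one t x)))
      (F.gb_wgt hm (B := m * (B + m)) ((F.cont_th2 m).const_mul m) (fun t x => by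
        rw [abs_mul, abs_of_nonneg hm]
        exact mul_le_mul_of_nonneg_left (F.bdd_th2 hm (fun t x => (hB t x).1) t x) hm))
      (F.gb_wgt hm (B := m * B) (F.contt.const_mul m) (fun t x => by
        rw [abs_mul, abs_of_nonneg hm]; exact mul_le_mul_of_nonneg_left (hB t x).2 hm))
      (fun s x => ((F.d1 s x).const_mul m).exp)
      (fun s x => (((F.d1 s x).const_mul m).exp.mul ((F.d2 s x).const_mul m)).congr_deriv (by
        simp only [th2]; ring))
      (fun s hs x => ((F.dt s hs x).const_mul m).exp) hdc hd hpos ht y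
    have h' := (h.log ((F.pot t).pos hm _ y).ne').div_const m
    have e : (fun s => potStep m (d s) (F.U s) y) =
        fun s => Real.log (heat (fun x => Real.exp (m * F.U s x)) (d s) y) / m := by
      funext s; simp [potStep, hm'.ne']
    rw [e]
    refine h'.congr_deriv ?_
    simp only [insStep, heat]
    simp only [mul_left_comm _ m, integral_const_mul]
    have := ((F.pot t).pos hm (d t) y).ne'
    simp only [heat] at this
    field_simp

/-- One level applied to the family. -/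
noncomputable def step (hm : 0 ≤ m) (hdc : Continuous d)
    (hd : ∀ s ∈ Ioo (0 : ℝ) 1, HasDerivAt d δ s)
    (hpos : δ = 0 ∨ ∀ s ∈ Ioo (0 : ℝ) 1, 0 < d s) : Fam where
  U t := potStep m (d t) (F.U t)
  U1 t := insStep m (d t) (F.U t) (F.U1 t)
  U2 t y := insStep m (d t) (F.U t) (F.th2 m t) y - m * insStep m (d t) (F.U t) (F.U1 t) y ^ 2
  Ut t y := insStep m (d t) (F.U t) (F.Ut t) y + δ / 2 * insStep m (d t) (F.U t) (F.th2 m t) y
  cont := by
    rcases eq_or_lt_of_le hm with rfl | hm'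
    · simpa [potStep] using F.gb_U.cont_heat hdc
    · simpa [potStep, hm'.ne'] using (((F.gb_exp hm).cont_heat hdc).log fun p =>
        ((F.pot p.1).pos hm _ _).ne').div_const m
  cont1 := F.cont_insStep hm hdc F.cont1 F.one
  cont2 := by
    obtain ⟨B, hB⟩ := F.bdd
    exact (F.cont_insStep hm hdc (F.cont_th2 m) (F.bdd_th2 hm fun t x => (hB t x).1)).sub
      (((F.cont_insStep hm hdc F.cont1 F.one).pow 2).const_mul m)
  contt := by
    obtain ⟨B, hB⟩ := F.bdd
    exact (F.cont_insStep hm hdc F.contt fun t x => (hB t x).2).add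
      ((F.cont_insStep hm hdc (F.cont_th2 m) (F.bdd_th2 hm fun t x => (hB t x).1)).const_mul _)
  d1 t y := F.deriv_pot hm t (d t) y
  d2 t y := F.deriv_ins hm t (d t) y
  dt _ ht y := F.deriv_time hm hdc hd hpos ht y
  even t x := by
    have h1 := heat_neg (g := F.U t) (F.even t) (d t) x
    have h2 := heat_neg (g := fun u => Real.exp (m * F.U t u)) (fun u => by rw [F.even]) (d t) x
    rcases eq_or_lt_of_le hm with rfl | hm'
    · simpa [potStep] using h1
    · simp [potStep, hm'.ne', h2]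
  one t x := abs_insStep_le (F.pot t) hm (F.cont1.comp (by fun_prop : Continuous fun x : ℝ => (t, x))) (F.one t) _ _
  nn t y := by
    obtain ⟨B, hB⟩ := F.bdd
    set v := Real.sqrt (d t)
    have hc1 : Continuous (F.U1 t) := F.cont1.comp (by fun_prop : Continuous fun x : ℝ => (t, x))
    have hc2 : Continuous (F.U2 t) := F.cont2.comp (by fun_prop : Continuous fun x : ℝ => (t, x))
    have iw := (F.pot t).int_exp hm y v
    have i1 := (F.pot t).int_wgt hm hc1 (F.one t) y v
    have i11 := (F.pot t).int_wgt hm (θ := fun x => F.U1 t x ^ 2) (B := 1) (hc1.pow 2)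
      (fun x => by rw [abs_of_nonneg (sq_nonneg _)]; exact F.sq_le_one t x) y v
    have i2 := (F.pot t).int_wgt hm hc2 (B := B) (fun x => by
      rw [abs_of_nonneg (F.nn t x)]; exact (hB t x).1) y v
    have key := assoc (μ := gaussianReal 0 1) (w := fun z => Real.exp (m * F.U t (y + v * z)))
      (a := fun z => F.U1 t (y + v * z)) (b := fun z => F.U1 t (y + v * z))
      (fun z => (Real.exp_pos _).le) (fun z z' => mul_self_nonneg _) iw i1 i1
      (i11.congr (Eventually.of_forall fun z => by ring))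
    have h0 : 0 ≤ ∫ z, Real.exp (m * F.U t (y + v * z)) * F.U2 t (y + v * z) ∂gaussianReal 0 1 :=
      integral_nonneg fun z => mul_nonneg (Real.exp_pos _).le (F.nn t _)
    simp only [insStep, heat, th2, mul_add, mul_left_comm _ m]
    rw [integral_add i2 (i11.const_mul m), integral_const_mul]
    simp only [mul_assoc, ← sq] at key
    have p := (F.pot t).pos hm (d t) y
    simp only [heat] at p
    rw [sub_nonneg, div_pow, ← mul_div_assoc, div_le_div_iff₀ (pow_pos p 2) p]
    nlinarith [mul_le_mul_of_nonneg_left key (mul_nonneg hm p.le), mul_nonneg h0 (mul_nonneg p.le p.le)]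
  bdd := by
    obtain ⟨B, hB⟩ := F.bdd
    refine ⟨B + m + |δ| / 2 * (B + m), fun t y => ?_⟩
    have h0 : 0 ≤ B := (abs_nonneg _).trans (hB t y).2
    have h2 : |insStep m (d t) (F.U t) (F.th2 m t) y| ≤ B + m := abs_insStep_le (F.pot t) hm
      ((F.cont_th2 m).comp (by fun_prop : Continuous fun x : ℝ => (t, x)))
      (F.bdd_th2 hm (fun t x => (hB t x).1) t) (d t) y
    have h3 : |insStep m (d t) (F.U t) (F.Ut t) y| ≤ B := abs_insStep_le (F.pot t) hm
      (F.contt.comp (by fun_prop : Continuous fun x : ℝ => (t, x))) (fun x => (hB t x).2) (d t) y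
    have h4 : (0 : ℝ) ≤ |δ| / 2 * (B + m) := by positivity
    constructor
    · linarith [mul_nonneg hm (sq_nonneg (insStep m (d t) (F.U t) (F.U1 t) y)), (abs_le.1 h2).2]
    · refine (abs_add_le _ _).trans ?_
      rw [abs_mul, abs_div, abs_two]
      have := mul_le_mul_of_nonneg_left h2 (by positivity : 0 ≤ |δ| / 2)
      linarith

/-- The spin `log cosh`. -/
noncomputable def spin : Fam where
  U _ x := Real.log (Real.cosh x)
  U1 _ := Real.tanh
  U2 _ x := 1 - Real.tanh x ^ 2
  Ut _ _ := 0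
  cont := (Real.continuous_cosh.log fun x => (Real.cosh_pos x).ne').comp continuous_snd
  cont1 := by
    have : Continuous Real.tanh := by
      rw [show Real.tanh = fun x => Real.sinh x / Real.cosh x from funext Real.tanh_eq_sinh_div_cosh]
      exact Real.continuous_sinh.div Real.continuous_cosh fun x => (Real.cosh_pos x).ne'
    exact this.comp continuous_snd
  cont2 := by
    simp only [Real.tanh_eq_sinh_div_cosh]
    exact continuous_const.sub (((Real.continuous_sinh.comp continuous_snd).div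
      (Real.continuous_cosh.comp continuous_snd) fun p => (Real.cosh_pos _).ne').pow 2)
  contt := continuous_const
  d1 _ x := by
    rw [Real.tanh_eq_sinh_div_cosh]
    exact (Real.hasDerivAt_cosh x).log (Real.cosh_pos x).ne'
  d2 _ x := by
    rw [show Real.tanh = fun x => Real.sinh x / Real.cosh x from funext Real.tanh_eq_sinh_div_cosh]
    refine ((Real.hasDerivAt_sinh x).div (Real.hasDerivAt_cosh x) (Real.cosh_pos x).ne').congr_deriv ?_
    have := (Real.cosh_pos x).ne'
    field_simp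
  dt _ _ _ := hasDerivAt_const _ _
  even _ x := by rw [Real.cosh_neg]
  one _ x := (Real.abs_tanh_lt_one x).le
  nn _ x := by
    have := pow_le_one₀ (n := 2) (abs_nonneg _) (Real.abs_tanh_lt_one x).le
    rw [sq_abs] at this
    linarith
  bdd := ⟨1, fun _ x => ⟨by linarith [sq_nonneg (Real.tanh x)], by simp⟩⟩

end Fam

end Vale.Agent.P166F
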