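import Vale.Agent.P166F.Defs
import Vale.Agent.P166F.Ent.Fam

/-!
The nested potential of `log cosh` along a segment of increments, with its slope insertions.
-/

namespace Vale.Agent.P166F

open MeasureTheory ProbabilityTheory Filter Set
open Vale.Agent.P157.Low
open scoped Topology

variable {r : ℕ}

/-- The single spin. -/
noncomputable def lcosh (y : ℝ) : ℝ := Real.log (Real.cosh y)

/-- Increments moving linearly, kept nonnegative. -/
noncomputable def dT (d δ : Fin (r + 1) → ℝ) (t : ℝ) (l : Fin (r + 1)) : ℝ := max 0 (d l + t * δ l)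

/-- The squared slope created at level `i`, carried out over `k` levels. -/
noncomputable def gUp (m d : Fin (r + 1) → ℝ) : ℕ → Fin (r + 1) → ℝ → ℝ
  | 0, _ => fun _ => 0
  | k + 1, i =>
    if h : k ≤ r then
      insStep (m ⟨r - k, by omega⟩) (d ⟨r - k, by omega⟩) (potUp m d lcosh k)
        (if (i : ℕ) = r - k then fun y => insUp m d lcosh Real.tanh k y ^ 2 else gUp m d k i)
    else gUp m d k i

/-- The change of the variance accumulated at level `i` inside `k` levels. -/
def tUp (δ : Fin (r + 1) → ℝ) (k : ℕ) (i : Fin (r + 1)) : ℝ :=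
  ∑ l : Fin (r + 1), if l ≤ i ∧ r < (l : ℕ) + k then δ l else 0

/-- The exponent just inside `k` levels. -/
def mIn (m : Fin (r + 1) → ℝ) (k : ℕ) : ℝ :=
  if h : 1 ≤ k ∧ k ≤ r + 1 then m ⟨r + 1 - k, by omega⟩ else 1

/-- The facts about `k` levels along a segment. -/
structure Stage (m d δ : Fin (r + 1) → ℝ) (k : ℕ) where
  F : Fam
  hU : ∀ t, F.U t = potUp m (dT d δ t) lcosh k
  hU1 : ∀ t, F.U1 t = insUp m (dT d δ t) lcosh Real.tanh k
  g_cont : ∀ i, Continuous fun p : ℝ × ℝ => gUp m (dT d δ p.1) k i p.2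
  g_mem : ∀ t i y, 0 ≤ gUp m (dT d δ t) k i y ∧ gUp m (dT d δ t) k i y ≤ 1
  g_zero : ∀ t (i : Fin (r + 1)), (i : ℕ) + k ≤ r → gUp m (dT d δ t) k i = fun _ => 0
  curv : ∀ t y, F.U2 t y + mIn m k * F.U1 t y ^ 2 =
    1 - ∑ i, lmass m i * gUp m (dT d δ t) k i y
  slope : ∀ t y, F.Ut t y = ((∑ l : Fin (r + 1), if r < (l : ℕ) + k then δ l else 0) -
    ∑ i, lmass m i * tUp δ k i * gUp m (dT d δ t) k i y) / 2

/-- Linearity of a tilted average. -/
lemma insStep_sum {ι : Type} [Fintype ι] {U : ℝ → ℝ} (hU : Pot U) {m : ℝ} (hm : 0 ≤ m) (v y c : ℝ)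
    (a : ι → ℝ) (θ : ι → ℝ → ℝ) (hθ : ∀ i, Continuous (θ i)) {B : ℝ} (hB : ∀ i x, |θ i x| ≤ B) :
    insStep m v U (fun x => c + ∑ i, a i * θ i x) y = c + ∑ i, a i * insStep m v U (θ i) y := by
  have hi := fun i => (hU.int_wgt hm (hθ i) (hB i) y (Real.sqrt v)).const_mul (a i)
  have e : ∀ x, Real.exp (m * U x) * (c + ∑ i, a i * θ i x) =
      Real.exp (m * U x) * c + ∑ i, a i * (Real.exp (m * U x) * θ i x) := fun x => by
    rw [mul_add, Finset.mul_sum]
    congr 1
    exact Finset.sum_congr rfl fun i _ => by ring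
  simp only [insStep, heat, e]
  rw [integral_add ((hU.int_exp hm y _).mul_const c) (integrable_finsetSum _ fun i _ => hi i),
    integral_finsetSum _ fun i _ => hi i, integral_mul_const]
  simp only [integral_const_mul]
  have p := hU.pos hm v y
  simp only [heat] at p
  rw [add_div, Finset.sum_div, mul_div_cancel_left₀ _ p.ne']
  congr 1
  exact Finset.sum_congr rfl fun i _ => by rw [mul_div_assoc]

lemma lmass_eq_mIn (m : Fin (r + 1) → ℝ) {k : ℕ} (hk : k ≤ r) :
    lmass m ⟨r - k, by omega⟩ = mIn m k - m ⟨r - k, by omega⟩ := by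
  rcases Nat.eq_zero_or_pos k with rfl | hk0
  · simp [lmass, mIn]
  · rw [lmass, mIn, dif_pos (show r - k < r by omega), dif_pos ⟨hk0, by omega⟩]
    congr 2
    ext
    simp only
    omega

/-- The hypotheses on a segment. -/
structure Seg (m d δ : Fin (r + 1) → ℝ) : Prop where
  hm : ∀ l, 0 ≤ m l
  h0 : ∀ l, 0 ≤ d l
  h1 : ∀ l, 0 ≤ d l + δ l

variable {m d δ : Fin (r + 1) → ℝ}

lemma Seg.still (hm : ∀ l, 0 ≤ m l) (hd : ∀ l, 0 ≤ d l) : Seg m d 0 :=
  ⟨hm, hd, fun l => by simpa using hd l⟩

lemma dT_zero (hd : ∀ l, 0 ≤ d l) (t : ℝ) : dT d 0 t = d := by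
  funext l; simp [dT, hd l]

lemma Seg.affine (h : Seg m d δ) {t : ℝ} (ht : t ∈ Icc (0 : ℝ) 1) (l : Fin (r + 1)) :
    dT d δ t l = d l + t * δ l := by
  refine max_eq_right ?_
  nlinarith [mul_nonneg (sub_nonneg.2 ht.2) (h.h0 l), mul_nonneg ht.1 (h.h1 l)]

lemma Seg.dT_deriv (h : Seg m d δ) (l : Fin (r + 1)) {s : ℝ} (hs : s ∈ Ioo (0 : ℝ) 1) :
    HasDerivAt (fun t => dT d δ t l) (δ l) s := by
  have h2 : HasDerivAt (fun t => d l + t * δ l) (δ l) s := by
    simpa using ((hasDerivAt_id s).mul_const (δ l)).const_add (d l)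
  refine h2.congr_of_eventuallyEq ?_
  filter_upwards [Ioo_mem_nhds hs.1 hs.2] with u hu using h.affine ⟨hu.1.le, hu.2.le⟩ l

lemma Seg.dT_pos (h : Seg m d δ) (l : Fin (r + 1)) :
    δ l = 0 ∨ ∀ s ∈ Ioo (0 : ℝ) 1, 0 < dT d δ s l := by
  rcases eq_or_ne (δ l) 0 with h0 | h0
  · exact Or.inl h0
  · refine Or.inr fun s hs => ?_
    rw [h.affine ⟨hs.1.le, hs.2.le⟩]
    rcases lt_or_gt_of_ne h0 with hn | hp
    · nlinarith [h.h1 l, mul_neg_of_pos_of_neg (sub_pos.2 hs.2) hn]
    · nlinarith [h.h0 l, mul_pos hs.1 hp]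

/-- The stage after `k` levels. -/
theorem exists_stage' (h : Seg m d δ) : ∀ k, k ≤ r + 1 → Nonempty (Stage m d δ k)
  | 0, _ => ⟨{
      F := Fam.spin
      hU := fun _ => rfl
      hU1 := fun _ => rfl
      g_cont := fun _ => continuous_const
      g_mem := fun _ _ _ => ⟨le_rfl, zero_le_one⟩
      g_zero := fun _ _ _ => rfl
      curv := fun _ _ => by simp [Fam.spin, mIn, gUp]
      slope := fun _ _ => by
        simp only [Fam.spin, gUp, mul_zero, Finset.sum_const_zero, sub_zero]
        rw [Finset.sum_eq_zero fun l _ => if_neg (by omega)]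
        simp }⟩
  | k + 1, hk1 => by
    obtain ⟨S⟩ := exists_stage' h k (by omega)
    have hk : k ≤ r := by omega
    set j : Fin (r + 1) := ⟨r - k, by omega⟩ with hj
    have hdc : Continuous fun t => dT d δ t j :=
      continuous_const.max (continuous_const.add (continuous_id.mul continuous_const))
    let F' := S.F.step (h.hm j) hdc (fun s hs => h.dT_deriv j hs) (h.dT_pos j)
    let θ : Fin (r + 1) → ℝ → ℝ → ℝ := fun i t =>
      if (i : ℕ) = r - k then fun y => S.F.U1 t y ^ 2 else gUp m (dT d δ t) k i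
    have hg : ∀ t i, gUp m (dT d δ t) (k + 1) i = insStep (m j) (dT d δ t j) (S.F.U t) (θ i t) := fun t i => by
      simp only [gUp, hk, dite_true, S.hU, S.hU1, θ, hj]
    have hθc : ∀ i, Continuous fun p : ℝ × ℝ => θ i p.1 p.2 := fun i => by
      simp only [θ]
      split_ifs
      · exact S.F.cont1.pow 2
      · exact S.g_cont i
    have hθm : ∀ i t y, 0 ≤ θ i t y ∧ θ i t y ≤ 1 := fun i t y => by
      simp only [θ]
      split_ifs
      · exact ⟨sq_nonneg _, S.F.sq_le_one t y⟩
      · exact S.g_mem t i y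
    have hθB : ∀ i t y, |θ i t y| ≤ 1 := fun i t y => by
      rw [abs_of_nonneg (hθm i t y).1]; exact (hθm i t y).2
    have hθ1 : ∀ i t, Continuous (θ i t) := fun i t =>
      (hθc i).comp (by fun_prop : Continuous fun x : ℝ => (t, x))
    -- the curvature inside this level
    have hS : ∀ t x, S.F.th2 (m j) t x = 1 + ∑ i, -lmass m i * θ i t x := fun t x => by
      have e : ∀ i, -lmass m i * θ i t x = -lmass m i * gUp m (dT d δ t) k i x +
          (if i = j then -lmass m j * S.F.U1 t x ^ 2 else 0) := fun i => by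
        simp only [θ]
        rcases eq_or_ne i j with rfl | hne
        · have h0 := congr_fun (S.g_zero t j (by simp only [hj]; omega)) x
          rw [if_pos (by rw [hj]), if_pos rfl, h0]
          ring
        · have : (i : ℕ) ≠ r - k := fun hh => hne (Fin.ext hh)
          simp [this, hne]
      simp only [e, Finset.sum_add_distrib, Finset.sum_ite_eq', Finset.mem_univ, if_true]
      have hc := S.curv t x
      have hl : lmass m j = mIn m k - m j := lmass_eq_mIn m hk
      simp only [Fam.th2, neg_mul, Finset.sum_neg_distrib]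
      rw [hl]
      linarith
    have hKS : ∀ t y, insStep (m j) (dT d δ t j) (S.F.U t) (S.F.th2 (m j) t) y =
        1 - ∑ i, lmass m i * gUp m (dT d δ t) (k + 1) i y := fun t y => by
      rw [show S.F.th2 (m j) t = fun x => 1 + ∑ i, -lmass m i * θ i t x from funext (hS t),
        insStep_sum (S.F.pot t) (h.hm j) _ y 1 _ (fun i => θ i t) (fun i => hθ1 i t) (fun i => hθB i t)]
      simp only [hg, neg_mul, Finset.sum_neg_distrib]
      ring
    have hT0 : tUp δ k j = 0 := by
      refine Finset.sum_eq_zero fun l _ => if_neg fun hh => ?_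
      have h1 : (l : ℕ) ≤ r - k := hh.1
      omega
    have hz : ∀ t (i : Fin (r + 1)), (i : ℕ) + (k + 1) ≤ r → gUp m (dT d δ t) (k + 1) i = fun _ => 0 :=
      fun t i hi => by
        funext y
        rw [hg]
        simp only [θ, show (i : ℕ) ≠ r - k by omega, if_false, S.g_zero t i (by omega)]
        exact insStep_const (S.F.pot t) (h.hm j) _ 0 y
    refine ⟨{
      F := F'
      hU := fun t => ?_
      hU1 := fun t => ?_
      g_cont := fun i => ?_
      g_mem := fun t i y => ?_
      g_zero := hz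
      curv := fun t y => ?_
      slope := fun t y => ?_ }⟩
    · funext y
      simp only [F', Fam.step, S.hU, potUp, hk, dite_true, potStep, hj]
    · funext y
      simp only [F', Fam.step, S.hU, S.hU1, insUp, hk, dite_true, insStep, hj]
    · simp only [hg]
      exact S.F.cont_insStep (h.hm j) hdc (hθc i) (hθB i)
    · rw [hg]
      refine ⟨?_, (abs_le.1 (abs_insStep_le (S.F.pot t) (h.hm j) (hθ1 i t) (hθB i t) _ y)).2⟩
      rw [← insStep_const (S.F.pot t) (h.hm j) (dT d δ t j) 0 y]
      exact insStep_le (S.F.pot t) (h.hm j) continuous_const (fun _ => le_rfl) (hθ1 i t) (hθB i t)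
        (fun x => (hθm i t x).1) _ y
    · simp only [F', Fam.step]
      rw [show mIn m (k + 1) = m j from by
        rw [mIn, dif_pos ⟨by omega, hk1⟩]; congr 1; ext; simp only [hj]; omega, hKS]
      ring
    · simp only [F', Fam.step]
      rw [hKS]
      have e1 : S.F.Ut t = fun x => (∑ l : Fin (r + 1), if r < (l : ℕ) + k then δ l else 0) / 2 +
          ∑ i, -(lmass m i * tUp δ k i / 2) * θ i t x := by
        funext x
        have ee : ∀ i, -(lmass m i * tUp δ k i / 2) * θ i t x =
            -(lmass m i * tUp δ k i * gUp m (dT d δ t) k i x) / 2 := fun i => by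
          simp only [θ]
          split_ifs with hi
          · rw [show i = j from Fin.ext hi, hT0]; ring
          · ring
        rw [S.slope t x, Finset.sum_congr rfl fun i _ => ee i, ← Finset.sum_div, Finset.sum_neg_distrib]
        ring
      rw [e1, insStep_sum (S.F.pot t) (h.hm j) _ y _ _ (fun i => θ i t) (fun i => hθ1 i t)
        (fun i => hθB i t)]
      have e2 : ∀ l : Fin (r + 1), (if r < (l : ℕ) + (k + 1) then δ l else 0) =
          (if r < (l : ℕ) + k then δ l else 0) + if l = j then δ j else 0 := fun l => by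
        rcases eq_or_ne l j with rfl | hne
        · rw [if_pos (by simp only [hj]; omega), if_neg (by simp only [hj]; omega), if_pos rfl, zero_add]
        · have hl : (l : ℕ) ≠ r - k := fun hh => hne (Fin.ext hh)
          rw [if_neg hne, add_zero]
          by_cases hl2 : r < (l : ℕ) + k
          · rw [if_pos hl2, if_pos (by omega)]
          · rw [if_neg hl2, if_neg (by omega)]
      simp only [e2, Finset.sum_add_distrib, Finset.sum_ite_eq', Finset.mem_univ, if_true]
      have e3 : ∀ i, lmass m i * tUp δ (k + 1) i * gUp m (dT d δ t) (k + 1) i y =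
          lmass m i * tUp δ k i * gUp m (dT d δ t) (k + 1) i y +
            δ j * (lmass m i * gUp m (dT d δ t) (k + 1) i y) := fun i => by
        by_cases hi : j ≤ i
        · have : tUp δ (k + 1) i = tUp δ k i + δ j := by
            have ej : ∀ l : Fin (r + 1), (if l ≤ i ∧ r < (l : ℕ) + (k + 1) then δ l else 0) =
                (if l ≤ i ∧ r < (l : ℕ) + k then δ l else 0) + if l = j then δ j else 0 := fun l => by
              rcases eq_or_ne l j with rfl | hne
              · rw [if_pos ⟨hi, by simp only [hj]; omega⟩, if_neg (fun hh => by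
                  have := hh.2; simp only [hj] at this; omega), if_pos rfl, zero_add]
              · have hl : (l : ℕ) ≠ r - k := fun hh => hne (Fin.ext hh)
                rw [if_neg hne, add_zero]
                by_cases hl2 : l ≤ i ∧ r < (l : ℕ) + k
                · rw [if_pos hl2, if_pos ⟨hl2.1, by omega⟩]
                · rw [if_neg hl2, if_neg (fun hh => hl2 ⟨hh.1, by omega⟩)]
            simp only [tUp, ej, Finset.sum_add_distrib, Finset.sum_ite_eq', Finset.mem_univ, if_true]
          rw [this]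
          ring
        · have hij : (i : ℕ) < r - k := by
            rw [hj, Fin.le_def] at hi
            simp only at hi
            omega
          simp [hz t i (by omega)]
      rw [Finset.sum_congr rfl fun i _ => e3 i, Finset.sum_add_distrib, ← Finset.mul_sum]
      simp only [← hg, neg_mul, Finset.sum_neg_distrib, div_mul_eq_mul_div, ← Finset.sum_div]
      ring

end Vale.Agent.P166F
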