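import Vale.Agent.P166F.Chain.Move
import Vale.Agent.P166F.Ent.Chain

/-!
The nested potential of `log cosh` as a chain of levels with cumulative variances, closed by a level of
exponent one, and the squared slopes carried to the root.
-/

namespace Vale.Agent.P166F

open MeasureTheory ProbabilityTheory
open Vale.Agent.P157 Vale.Agent.P157.Low
open Vale.Agent.P166F.Chain

variable {r : ℕ}

/-- The exponents, closed by one. -/
def expsList (m : Fin (r + 1) → ℝ) : List ℝ := List.ofFn m ++ [1]

/-- Cumulative variances, closed by `M`. -/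
def cumVar (a : Fin (r + 1) → ℝ) (M : ℝ) (n : ℕ) : ℝ :=
  if n = 0 then 0 else if h : n ≤ r + 1 then a ⟨n - 1, by omega⟩ else M

/-- The squared slope created at level `l`, at the root. -/
noncomputable def slopeSq (m a : Fin (r + 1) → ℝ) (l : Fin (r + 1)) : ℝ :=
  gUp m (incr a) (r + 1) l 0

lemma length_expsList (m : Fin (r + 1) → ℝ) : (expsList m).length = r + 2 := by simp [expsList]

lemma getD_expsList (m : Fin (r + 1) → ℝ) {n : ℕ} (hn : n ≤ r) :
    (expsList m).getD n 0 = m ⟨n, by omega⟩ := by
  rw [List.getD_eq_getElem _ _ (by simp [expsList]; omega)]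
  simp only [expsList]
  rw [List.getElem_append_left (by simp; omega), List.getElem_ofFn]

lemma getD_expsList_last (m : Fin (r + 1) → ℝ) : (expsList m).getD (r + 1) 0 = 1 := by
  rw [List.getD_eq_getElem _ _ (by simp [expsList])]
  simp [expsList]

lemma unitExps_expsList {m : Fin (r + 1) → ℝ} (hm : ∀ l, 0 ≤ m l ∧ m l ≤ 1) : UnitExps (expsList m) := by
  intro p hp
  simp only [expsList, List.mem_append, List.mem_ofFn, List.mem_singleton] at hp
  rcases hp with ⟨l, rfl⟩ | rfl
  · exact hm l
  · exact ⟨zero_le_one, le_rfl⟩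

lemma cumVar_sub (a : Fin (r + 1) → ℝ) (M : ℝ) {n : ℕ} (hn : n ≤ r) :
    cumVar a M (n + 1) - cumVar a M n = incr a ⟨n, by omega⟩ := by
  rcases n with _ | n
  · simp [cumVar, incr]
  · simp [cumVar, incr, show n + 1 + 1 ≤ r + 1 by omega, show n + 1 ≤ r + 1 by omega]

lemma ltilt_eq_insStep (m s C : ℝ) (U F : ℝ → ℝ) :
    ltilt m s (fun x => U x + C) F = insStep m s U F := by
  funext y
  simp only [ltilt_eq, insStep, heat, mul_add, Real.exp_add, mul_comm _ (Real.exp (m * C)), mul_assoc,
    integral_const_mul]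
  exact mul_div_mul_left _ _ (Real.exp_pos _).ne'

lemma lstep_eq_potStep {U : ℝ → ℝ} {C : ℝ} (hU : RSB.Lip 1 fun x => U x + C) (m s : ℝ) :
    lstep m s (fun x => U x + C) = fun y => potStep m s U y + C := by
  funext y
  have hi : Integrable (fun z => U (y + Real.sqrt s * z)) (gaussianReal 0 1) := by
    exact ((int_shift hU y (Real.sqrt s)).sub (integrable_const C)).congr
      (Filter.Eventually.of_forall fun z => by simp)
  rcases eq_or_ne m 0 with rfl | hm
  · simp only [lstep, lmom_zero, potStep, if_true, heat]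
    rw [integral_add hi (integrable_const C)]
    simp
  · have hw : Integrable (fun z => Real.exp (m * U (y + Real.sqrt s * z))) (gaussianReal 0 1) := by
      refine ((wgt_step hU m y s).int.const_mul (Real.exp (-(m * C)))).congr
        (Filter.Eventually.of_forall fun z => ?_)
      simp only
      rw [← Real.exp_add]
      ring_nf
    simp only [lstep, lmom, potStep, if_neg hm, RSB.lexp, heat, mul_add, Real.exp_add,
      mul_comm _ (Real.exp (m * C)), integral_const_mul]
    rw [Real.log_mul (Real.exp_pos _).ne' (integral_exp_pos hw).ne', Real.log_exp]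
    field_simp
    ring

lemma spin_step (s : ℝ) :
    lstep 1 s lcosh = (fun y => lcosh y + Real.sqrt s ^ 2 / 2) ∧
      ltilt 1 s lcosh Real.tanh = Real.tanh := by
  set c := Real.sqrt s
  have hi : ∀ a : ℝ, Integrable (fun z => Real.exp (a * z)) (gaussianReal 0 1) :=
    fun a => integrable_exp_mul_gaussianReal a
  have he : ∀ y z, Real.exp (1 * lcosh (y + c * z)) =
      Real.exp y / 2 * Real.exp (c * z) + Real.exp (-y) / 2 * Real.exp (-c * z) := fun y z => by
    rw [one_mul, lcosh, Real.exp_log (Real.cosh_pos _), Real.cosh_eq, neg_add, ← neg_mul, Real.exp_add,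
      Real.exp_add]
    ring
  have hs : ∀ y z, Real.exp (1 * lcosh (y + c * z)) * Real.tanh (y + c * z) =
      Real.exp y / 2 * Real.exp (c * z) - Real.exp (-y) / 2 * Real.exp (-c * z) := fun y z => by
    rw [one_mul, lcosh, Real.exp_log (Real.cosh_pos _), Real.tanh_eq_sinh_div_cosh,
      mul_div_cancel₀ _ (Real.cosh_pos _).ne', Real.sinh_eq, neg_add, ← neg_mul, Real.exp_add,
      Real.exp_add]
    ring
  have h1 : ∀ y, ∫ z, Real.exp (1 * lcosh (y + c * z)) ∂gaussianReal 0 1 =
      Real.exp (c ^ 2 / 2) * Real.cosh y := fun y => by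
    simp only [he]
    rw [integral_add ((hi c).const_mul _) ((hi (-c)).const_mul _), integral_const_mul, integral_const_mul,
      integral_exp_gauss, integral_exp_gauss, neg_sq, Real.cosh_eq]
    ring
  have h2 : ∀ y, ∫ z, Real.exp (1 * lcosh (y + c * z)) * Real.tanh (y + c * z) ∂gaussianReal 0 1 =
      Real.exp (c ^ 2 / 2) * Real.sinh y := fun y => by
    simp only [hs]
    rw [integral_sub ((hi c).const_mul _) ((hi (-c)).const_mul _), integral_const_mul, integral_const_mul,
      integral_exp_gauss, integral_exp_gauss, neg_sq, Real.sinh_eq]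
    ring
  constructor <;> funext y
  · simp only [lstep, lmom, one_ne_zero, if_false, RSB.lexp]
    rw [h1, Real.log_mul (Real.exp_pos _).ne' (Real.cosh_pos _).ne', Real.log_exp, div_one, lcosh]
    ring
  · rw [ltilt_eq, h2, h1, mul_div_mul_left _ _ (Real.exp_pos _).ne', Real.tanh_eq_sinh_div_cosh]

/-- The chain read from `k` levels. -/
theorem chain_eq {m : Fin (r + 1) → ℝ} (hm : ∀ l, 0 ≤ m l ∧ m l ≤ 1) (a : Fin (r + 1) → ℝ) (M : ℝ) :
    ∀ k, k ≤ r + 1 →
      (∃ C, cPot ((expsList m).drop (r + 1 - k)) (fun n => cumVar a M (n + (r + 1 - k))) =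
          fun y => potUp m (incr a) lcosh k y + C) ∧
        cSlope ((expsList m).drop (r + 1 - k)) (fun n => cumVar a M (n + (r + 1 - k))) =
          insUp m (incr a) lcosh Real.tanh k ∧
        ∀ l : Fin (r + 1), r + 1 - k ≤ (l : ℕ) →
          cSq ((expsList m).drop (r + 1 - k)) (fun n => cumVar a M (n + (r + 1 - k)))
            ((l : ℕ) + 1 - (r + 1 - k)) = gUp m (incr a) k l
  | 0, _ => by
    have e : (expsList m).drop (r + 1) = [1] := List.drop_left' (by simp)
    rw [Nat.sub_zero, e]
    obtain ⟨hp, ht⟩ := spin_step (cumVar a M (1 + (r + 1)) - cumVar a M (0 + (r + 1)))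
    exact ⟨⟨_, hp⟩, ht, fun l hl => absurd l.2 (by omega)⟩
  | k + 1, hk1 => by
    have hk : k ≤ r := by omega
    obtain ⟨⟨C, hP⟩, hS, hQ⟩ := chain_eq hm a M k (by omega)
    rw [show r + 1 - k = r - k + 1 by omega] at hP hS hQ
    rw [show r + 1 - (k + 1) = r - k by omega]
    have e : (expsList m).drop (r - k) = m ⟨r - k, by omega⟩ :: (expsList m).drop (r - k + 1) := by
      rw [List.drop_eq_getElem_cons (by simp [expsList]; omega)]
      congr 1
      simp only [expsList]
      rw [List.getElem_append_left (by simp), List.getElem_ofFn]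
    have eQ : (fun n => cumVar a M (n + 1 + (r - k))) = fun n => cumVar a M (n + (r - k + 1)) := by
      funext n; congr 1; omega
    have ed : cumVar a M (1 + (r - k)) - cumVar a M (0 + (r - k)) = incr a ⟨r - k, by omega⟩ := by
      rw [zero_add, add_comm 1]; exact cumVar_sub a M (by omega)
    have hL : RSB.Lip 1 fun y => potUp m (incr a) lcosh k y + C :=
      hP ▸ (nice_chain _ _ fun p hp => unitExps_expsList hm p (List.mem_of_mem_drop hp)).lip
    rw [e]
    refine ⟨⟨C, ?_⟩, ?_, fun l hl => ?_⟩
    · simp only [cPot]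
      rw [eQ, ed, hP, lstep_eq_potStep hL]
      funext y
      simp only [potUp, hk, dite_true, potStep]
    · simp only [cSlope]
      rw [eQ, ed, hP, hS, ltilt_eq_insStep]
      funext y
      simp only [insUp, hk, dite_true, insStep]
    · rw [show (l : ℕ) + 1 - (r - k) = ((l : ℕ) - (r - k)) + 1 by omega]
      simp only [cSq]
      rw [eQ, ed, hP, ltilt_eq_insStep]
      simp only [gUp, hk, dite_true]
      congr 1
      split_ifs with hj
      · rw [show (l : ℕ) - (r - k) = 0 by omega, cSq_zero, hS]
      · rw [show (l : ℕ) - (r - k) = (l : ℕ) + 1 - (r - k + 1) by omega]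
        exact hQ l (by omega)

lemma slopeSq_eq {m : Fin (r + 1) → ℝ} (hm : ∀ l, 0 ≤ m l ∧ m l ≤ 1) (a : Fin (r + 1) → ℝ) (M : ℝ)
    (l : Fin (r + 1)) : slopeSq m a l = cSq (expsList m) (cumVar a M) ((l : ℕ) + 1) 0 := by
  have h := (chain_eq hm a M (r + 1) le_rfl).2.2 l (by omega)
  simp only [Nat.sub_self, List.drop_zero, Nat.sub_zero, add_zero] at h
  exact (congr_fun h 0).symm

/-- Two insertions meeting at a level, carried to the root. -/
lemma pairRoot_eq (m a : Fin (r + 1) → ℝ) (l : Fin (r + 1)) :
    pairRoot m (incr a) lcosh Real.tanh Real.tanh l = slopeSq m a l := by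
  set d := incr a
  set k := r - (l : ℕ) with hk
  set m' : Fin ((l : ℕ) + 1) → ℝ := fun i => m ⟨i, by omega⟩
  set d' : Fin ((l : ℕ) + 1) → ℝ := fun i => d ⟨i, by omega⟩
  set η := fun y => insUp m d lcosh Real.tanh k y * insUp m d lcosh Real.tanh k y with hη
  have key : ∀ n, n ≤ (l : ℕ) + 1 →
      potUp m' d' (potUp m d lcosh k) n = potUp m d lcosh (k + n) ∧
        insUp m' d' (potUp m d lcosh k) η n = if n = 0 then η else gUp m d (k + n) l := by
    intro n
    induction n with
    | zero => exact fun _ => ⟨rfl, rfl⟩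
    | succ n ih =>
      intro hn
      obtain ⟨hP, hI⟩ := ih (by omega)
      have h1 : n ≤ (l : ℕ) := by omega
      have h2 : k + n ≤ r := by omega
      have hj : (l : ℕ) - n = r - (k + n) := by omega
      rw [← Nat.add_assoc k n 1]
      constructor
      · simp only [potUp, h1, h2, dite_true, hP, m', d', hj]
      · rw [if_neg (by omega)]
        funext y
        simp only [insUp, gUp, insStep, h1, h2, dite_true, hP, m', d', hj]
        rw [show insUp (fun i : Fin ((l : ℕ) + 1) => m ⟨i, by omega⟩) (fun i => d ⟨i, by omega⟩)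
          (potUp m d lcosh k) η n = (if (l : ℕ) = r - (k + n) then
            fun y => insUp m d lcosh Real.tanh (k + n) y ^ 2 else gUp m d (k + n) l) from by
          rw [show insUp _ _ _ η n = _ from hI]
          rcases Nat.eq_zero_or_pos n with rfl | hn0
          · rw [if_pos rfl, if_pos (by omega)]
            funext y
            simp only [hη, add_zero, sq]
          · rw [if_neg (by omega), if_neg (by omega)]]
  have := congr_fun (key ((l : ℕ) + 1) le_rfl).2 0
  rw [if_neg (by omega), show k + ((l : ℕ) + 1) = r + 1 by omega] at this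
  exact this

end Vale.Agent.P166F
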