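import Vale.Agent.P166F.Ent.Line

/-!
Comparisons of the squared slopes between field paths, and the gradient inequality of the field
functional.
-/

namespace Vale.Agent.P166F

open MeasureTheory ProbabilityTheory Set
open Vale.Agent.P157.Low Vale.Agent.P166F.Chain

variable {k : ℕ} {m a b : Fin (k + 1) → ℝ}

/-- Levels with nonnegative increasing exponents below one. -/
lemma Levels.unit (hm : Levels m) (l : Fin (k + 1)) : 0 ≤ m l ∧ m l ≤ 1 :=
  ⟨hm.zero ▸ hm.strict.monotone (Fin.zero_le l), (hm.ltOne l).le⟩

lemma lmass_nonneg (hm : Levels m) (l : Fin (k + 1)) : 0 ≤ lmass m l := by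
  rw [lmass]
  split_ifs with h
  · exact sub_nonneg.2 (hm.strict.monotone (Fin.le_def.2 (by simp)))
  · exact sub_nonneg.2 (hm.ltOne l).le

/-- Raising one coordinate lowers the other squared slopes. -/
lemma slopeSq_raise_one (hm : Levels m) (ha : Monotone a ∧ ∀ l, 0 ≤ a l) {n : Fin (k + 1)} {v : ℝ}
    (hv : a n ≤ v) (hv' : ∀ l, n < l → v ≤ a l) {l : Fin (k + 1)} (hl : l ≠ n) :
    slopeSq m (Function.update a n v) l ≤ slopeSq m a l := by
  set M := v + a (Fin.last k)
  rw [slopeSq_eq hm.unit _ M, slopeSq_eq hm.unit _ M]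
  refine (chain_move (expsList m) n (cumVar a M) (cumVar (Function.update a n v) M) ?_).2 _
    (fun h => hl (Fin.ext (by omega))) 0
  have hn : (n : ℕ) + 1 ≤ k + 1 := n.2
  refine ⟨unitExps_expsList hm.unit, by rw [length_expsList]; omega, ?_, fun j hj => ?_, ?_, ?_, ?_⟩
  · rw [getD_expsList m (by omega : (n : ℕ) ≤ k)]
    rcases Nat.lt_or_ge (n : ℕ) k with h | h
    · rw [getD_expsList m (by omega : (n : ℕ) + 1 ≤ k)]
      exact hm.strict.monotone (Fin.le_def.2 (by simp))
    · rw [show (n : ℕ) + 1 = k + 1 by omega, getD_expsList_last]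
      exact (hm.ltOne _).le
  · simp only [cumVar]
    split_ifs with h1 h2
    · rfl
    · rw [Function.update_of_ne]
      intro h; exact hj (by have := congrArg Fin.val h; simp only at this; omega)
    · rfl
  · rcases Nat.eq_zero_or_pos (n : ℕ) with h | h
    · simpa [cumVar, h] using ha.2 _
    · simp only [cumVar, h.ne', if_false, show (n : ℕ) + 1 ≠ 0 by omega, hn, dite_true,
        show (n : ℕ) ≤ k + 1 by omega]
      exact ha.1 (Fin.le_def.2 (by simp))
  · simpa [cumVar, hn] using hv
  · simp only [cumVar, show (n : ℕ) + 1 ≠ 0 by omega, show (n : ℕ) + 2 ≠ 0 by omega, if_false, hn,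
      dite_true, add_tsub_cancel_right, Fin.eta, Function.update_self]
    split_ifs with h
    · exact hv' _ (Fin.lt_def.2 (by simp))
    · exact le_add_of_nonneg_right (ha.2 _)

/-- Raising a path lowers the squared slopes where it does not move. -/
lemma slopeSq_raise (hm : Levels m) (ha : Monotone a ∧ ∀ l, 0 ≤ a l) (hb : Monotone b ∧ ∀ l, 0 ≤ b l)
    (hab : ∀ l, a l ≤ b l) {l : Fin (k + 1)} (hl : a l = b l) : slopeSq m b l ≤ slopeSq m a l := by
  set x : ℕ → Fin (k + 1) → ℝ := fun n i => if k + 1 - n ≤ (i : ℕ) then b i else a i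
  have key : ∀ n, n ≤ k + 1 → slopeSq m (x n) l ≤ slopeSq m a l := by
    intro n
    induction n with
    | zero =>
      intro _
      rw [show x 0 = a from funext fun i => if_neg (by omega)]
    | succ n ih =>
      intro hn
      set p : Fin (k + 1) := ⟨k - n, by omega⟩
      have e : x (n + 1) = Function.update (x n) p (b p) := funext fun i => by
        rcases eq_or_ne i p with rfl | h
        · rw [Function.update_self]; exact if_pos (by simp [p])
        · have : (i : ℕ) ≠ k - n := fun hh => h (Fin.ext hh)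
          rw [Function.update_of_ne h]
          exact if_congr (by omega) rfl rfl
      have hxp : x n p = a p := if_neg (by simp only [p]; omega)
      rcases eq_or_ne l p with rfl | hne
      · rw [e, show b p = x n p by rw [hxp, hl], Function.update_eq_self]
        exact ih (by omega)
      rw [e]
      refine (slopeSq_raise_one hm ?_ (hxp.trans_le (hab p)) (fun i hi => ?_) hne).trans (ih (by omega))
      · refine ⟨fun i j hij => ?_, fun i => ?_⟩
        · have : (i : ℕ) ≤ j := hij
          simp only [x]
          split_ifs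
          · exact hb.1 hij
          · omega
          · exact (ha.1 hij).trans (hab j)
          · exact ha.1 hij
        · simp only [x]; split_ifs; exacts [hb.2 i, ha.2 i]
      · have : k - n < (i : ℕ) := hi
        rw [show x n i = b i from if_pos (by omega)]
        exact hb.1 hi.le
  have := key (k + 1) le_rfl
  rwa [show x (k + 1) = b from funext fun i => if_pos (by omega)] at this

/-- A common shift raises every squared slope. -/
lemma slopeSq_shift (hm : Levels m) {c : ℝ} (hc : 0 ≤ c)
    (a : Fin (k + 1) → ℝ) (l : Fin (k + 1)) : slopeSq m a l ≤ slopeSq m (fun i => a i + c) l := by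
  set M := a (Fin.last k)
  rw [slopeSq_eq hm.unit a M, slopeSq_eq hm.unit _ (M + c)]
  have e : expsList m = (0 : ℝ) :: (expsList m).drop 1 := by
    conv_lhs => rw [← List.drop_zero (l := expsList m),
      List.drop_eq_getElem_cons (by simp [expsList] : 0 < (expsList m).length)]
    congr 1
    simp [expsList, hm.zero]
  have hU : UnitExps ((expsList m).drop 1) := fun p hp =>
    unitExps_expsList hm.unit p (List.mem_of_mem_drop hp)
  set a' := fun i => a i + c
  obtain ⟨h1, -, h3⟩ := chain_congr ((expsList m).drop 1) (Q := fun n => cumVar a' (M + c) (n + 1))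
    (Q' := fun n => cumVar a M (n + 1)) fun n _ => by
      simp only [cumVar, a', Nat.succ_ne_zero, if_false]
      split_ifs <;> ring
  rw [e]
  simp only [cSq]
  rw [h1, h3]
  obtain ⟨hFm, hFb, hFi⟩ := cSq_props ((expsList m).drop 1) (fun n => cumVar a M (n + 1)) l hU
  simp only [ltilt_eq, zero_mul, Real.exp_zero, one_mul, zero_add, integral_const, probReal_univ,
    smul_eq_mul, mul_one, div_one]
  have hi : ∀ s : ℝ, Integrable (fun z => cSq ((expsList m).drop 1) (fun n => cumVar a M (n + 1)) l (s * z))
      (gaussianReal 0 1) := fun s => (integrable_const (1 : ℝ)).mono'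
    (hFm.comp (measurable_const_mul s)).aestronglyMeasurable
    (Filter.Eventually.of_forall fun z => (Real.norm_eq_abs _).trans_le (hFb _))
  refine integral_mono (hi _) (hi _) fun z => hFi _ _ ?_
  rw [abs_mul, abs_mul, abs_of_nonneg (Real.sqrt_nonneg _), abs_of_nonneg (Real.sqrt_nonneg _)]
  exact mul_le_mul_of_nonneg_right (Real.sqrt_le_sqrt (by
    simp only [cumVar, a']; split_ifs <;> linarith)) (abs_nonneg z)

/-- Raising some coordinates by a common amount. -/
lemma slopeSq_move (hm : Levels m) (ha : Monotone a ∧ ∀ l, 0 ≤ a l) (hb : Monotone b ∧ ∀ l, 0 ≤ b l)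
    {c : ℝ} (hc : 0 ≤ c) (h : ∀ l, b l = a l ∨ b l = a l + c) (l : Fin (k + 1)) :
    (b l = a l → slopeSq m b l ≤ slopeSq m a l) ∧
      (b l = a l + c → slopeSq m a l ≤ slopeSq m b l) := by
  refine ⟨fun e => slopeSq_raise hm ha hb (fun i => by rcases h i with e | e <;> linarith) e.symm,
    fun e => (slopeSq_shift hm hc a l).trans (slopeSq_raise hm hb
      ⟨fun i j hij => add_le_add (ha.1 hij) le_rfl, fun i => add_nonneg (ha.2 i) hc⟩
      (fun i => by rcases h i with e | e <;> linarith) e)⟩

/-- A value at the end of a segment is below the tangent when the derivative only decreases. -/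
lemma le_tangent {f g : ℝ → ℝ} (hf : ContinuousOn f (Icc 0 1))
    (hd : ∀ t ∈ Ioo (0 : ℝ) 1, HasDerivAt f (g t) t) (hg : ∀ t ∈ Ioo (0 : ℝ) 1, g t ≤ g 0) :
    f 1 - f 0 ≤ g 0 := by
  obtain ⟨t, ht, he⟩ := exists_hasDerivAt_eq_slope f g one_pos hf hd
  have := hg t ht
  rw [he, sub_zero, div_one] at this
  exact this

/-- One uniform move, in either direction. -/
lemma xbar_move (hm : Levels m) (ha : Monotone a ∧ ∀ l, 0 ≤ a l) (hb : Monotone b ∧ ∀ l, 0 ≤ b l)
    {c : ℝ} (h : ∀ l, b l = a l ∨ b l = a l + c) :
    xbar m b - xbar m a ≤ dirDeriv m a (fun l => b l - a l) := by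
  obtain ⟨hf, -, hd⟩ := xbar_line (fun l => (hm.unit l).1) ha hb
  have h1 : (fun i => a i + 1 * (b i - a i)) = b := funext fun i => by ring
  have h0 : (fun i => a i + 0 * (b i - a i)) = a := funext fun i => by ring
  have := le_tangent hf hd fun t ht => ?_
  · simpa only [h0, h1] using this
  simp only [h0]
  have hp : Monotone (fun i => a i + t * (b i - a i)) ∧ ∀ i, 0 ≤ a i + t * (b i - a i) := by
    refine ⟨fun i j hij => ?_, fun i => ?_⟩
    · linarith [mul_le_mul_of_nonneg_left (ha.1 hij) (sub_nonneg.2 ht.2.le),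
        mul_le_mul_of_nonneg_left (hb.1 hij) ht.1.le]
    · linarith [mul_nonneg (sub_nonneg.2 ht.2.le) (ha.2 i), mul_nonneg ht.1.le (hb.2 i)]
  refine div_le_div_of_nonneg_right (neg_le_neg (Finset.sum_le_sum fun l _ => ?_)) two_pos.le
  rw [mul_assoc, mul_assoc]
  refine mul_le_mul_of_nonneg_left ?_ (lmass_nonneg hm l)
  beta_reduce
  rcases h l with e | e
  · simp [e]
  rw [e, add_sub_cancel_left]
  rcases le_total 0 c with hc | hc
  · refine mul_le_mul_of_nonneg_right ((slopeSq_move hm ha hp (mul_nonneg ht.1.le hc) (fun i => ?_) l).2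
      (by rw [e]; ring)) hc
    rcases h i with e | e <;> rw [e]
    · left; ring
    · right; ring
  · refine mul_le_mul_of_nonpos_right ((slopeSq_move hm hp ha (c := -(t * c)) (by
      nlinarith [ht.1]) (fun i => ?_) l).2 (by rw [e]; ring)) hc
    rcases h i with e | e <;> rw [e]
    · left; ring
    · right; ring

/-- The field functional lies below its tangents. -/
theorem xbar_le_tangent (hm : Levels m) : ∀ {a b : Fin (k + 1) → ℝ}, (Monotone a ∧ ∀ l, 0 ≤ a l) →
    (Monotone b ∧ ∀ l, 0 ≤ b l) → xbar m b - xbar m a ≤ dirDeriv m a (fun l => b l - a l) := by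
  suffices key : ∀ (N : ℕ) (a b : Fin (k + 1) → ℝ), (Monotone a ∧ ∀ l, 0 ≤ a l) →
      (Monotone b ∧ ∀ l, 0 ≤ b l) → (Finset.univ.filter fun l => a l ≠ b l).card ≤ N →
      xbar m b - xbar m a ≤ dirDeriv m a (fun l => b l - a l) from
    fun {a b} ha hb => key _ a b ha hb le_rfl
  intro N
  induction N with
  | zero =>
    intro a b _ _ hN
    obtain rfl : a = b := funext fun l => by
      by_contra h
      simpa [Finset.card_eq_zero.1 (Nat.le_zero.1 hN)] using
        (Finset.mem_filter.2 ⟨Finset.mem_univ l, h⟩ : l ∈ Finset.univ.filter fun l => a l ≠ b l)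
    simp [dirDeriv]
  | succ N ih =>
    intro a b ha hb hN
    rcases eq_or_ne a b with rfl | hne
    · simp [dirDeriv]
    -- one uniform move `a₁` towards `b`
    suffices hm1 : ∃ (a₁ : Fin (k + 1) → ℝ) (c : ℝ), (Monotone a₁ ∧ ∀ l, 0 ≤ a₁ l) ∧
        (∀ l, a₁ l = a l ∨ a₁ l = a l + c) ∧
        (∀ l, a l = b l → a₁ l = b l) ∧ (∃ p, a p ≠ b p ∧ a₁ p = b p) ∧
        (∀ l, 0 ≤ (slopeSq m a₁ l - slopeSq m a l) * (b l - a₁ l)) by
      obtain ⟨a₁, c, h1, hc, hkeep, ⟨p, hp, hp1⟩, hs⟩ := hm1
      have h2 := ih a₁ b h1 hb (by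
        have hsub : (Finset.univ.filter fun l => a₁ l ≠ b l) ⊂
            Finset.univ.filter fun l => a l ≠ b l := by
          refine Finset.ssubset_iff_of_subset (fun l hl => ?_) |>.2 ⟨p, by simpa using hp, by simpa using hp1⟩
          simp only [Finset.mem_filter, Finset.mem_univ, true_and] at hl ⊢
          exact fun e => hl (hkeep l e)
        have := Finset.card_lt_card hsub
        omega)
      have h3 := xbar_move hm ha h1 hc
      have h4 : ∀ l, lmass m l * slopeSq m a l * (b l - a l) ≤
          lmass m l * slopeSq m a₁ l * (b l - a₁ l) + lmass m l * slopeSq m a l * (a₁ l - a l) := fun l => by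
        linarith [mul_nonneg (lmass_nonneg hm l) (hs l)]
      have h5 := Finset.sum_le_sum (s := Finset.univ) fun l _ => h4 l
      rw [Finset.sum_add_distrib] at h5
      simp only [dirDeriv] at h2 h3 ⊢
      linarith
    by_cases hpos : ∃ l, a l < b l
    · obtain ⟨p, hp, hmin⟩ := Finset.exists_min_image (Finset.univ.filter fun l => a l < b l)
        (fun l => b l - a l) (by simpa [Finset.filter_nonempty_iff] using hpos)
      simp only [Finset.mem_filter, Finset.mem_univ, true_and] at hp hmin
      set c := b p - a p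
      set a₁ : Fin (k + 1) → ℝ := fun l => if a l < b l then a l + c else a l with ha₁
      have hc : 0 ≤ c := sub_nonneg.2 hp.le
      have h1 : Monotone a₁ ∧ ∀ l, 0 ≤ a₁ l := by
        refine ⟨fun i j hij => ?_, fun i => ?_⟩
        · simp only [ha₁]
          split_ifs with hi hj
          · linarith [ha.1 hij]
          · linarith [hmin i hi, hb.1 hij, not_lt.1 hj]
          · linarith [ha.1 hij]
          · exact ha.1 hij
        · simp only [ha₁]; split_ifs <;> linarith [ha.2 i]
      have hor : ∀ l, a₁ l = a l ∨ a₁ l = a l + c := fun l => by simp only [ha₁]; split_ifs <;> simp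
      refine ⟨a₁, c, h1, hor, fun l e => by simp [ha₁, e], ⟨p, hp.ne, by simp [ha₁, hp, c]⟩, fun l => ?_⟩
      obtain ⟨h2, h3⟩ := slopeSq_move hm ha h1 hc hor l
      by_cases hl : a l < b l
      · have e : a₁ l = a l + c := if_pos hl
        exact mul_nonneg (sub_nonneg.2 (h3 e)) (by linarith [hmin l hl])
      · have e : a₁ l = a l := if_neg hl
        exact mul_nonneg_of_nonpos_of_nonpos (sub_nonpos.2 (h2 e)) (by linarith [not_lt.1 hl])
    · push Not at hpos
      obtain ⟨q, hq⟩ := Function.ne_iff.1 hne
      obtain ⟨p, hp, hmin⟩ := Finset.exists_min_image (Finset.univ.filter fun l => b l < a l)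
        (fun l => a l - b l) ⟨q, by simpa using lt_of_le_of_ne (hpos q) (Ne.symm hq)⟩
      simp only [Finset.mem_filter, Finset.mem_univ, true_and] at hp hmin
      set c := a p - b p
      set a₁ : Fin (k + 1) → ℝ := fun l => if b l < a l then a l - c else a l with ha₁
      have hc : 0 ≤ c := sub_nonneg.2 hp.le
      have h1 : Monotone a₁ ∧ ∀ l, 0 ≤ a₁ l := by
        refine ⟨fun i j hij => ?_, fun i => ?_⟩
        · simp only [ha₁]
          split_ifs with hi hj hj
          · linarith [ha.1 hij]
          · linarith [ha.1 hij]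
          · linarith [hmin j hj, hb.1 hij, not_lt.1 hi]
          · exact ha.1 hij
        · simp only [ha₁]
          split_ifs with hi
          · linarith [hmin i hi, hb.2 i]
          · exact ha.2 i
      have hor : ∀ l, a₁ l = a l ∨ a₁ l = a l + -c := fun l => by
        simp only [ha₁]; split_ifs <;> simp [sub_eq_add_neg]
      refine ⟨a₁, -c, h1, hor, fun l e => by simp [ha₁, e], ⟨p, hp.ne', by simp [ha₁, hp, c]⟩, fun l => ?_⟩
      have hor' : ∀ l, a l = a₁ l ∨ a l = a₁ l + c := fun l => by
        rcases hor l with e | e <;> rw [e] <;> simp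
      obtain ⟨-, h3⟩ := slopeSq_move hm h1 ha hc hor' l
      by_cases hl : b l < a l
      · have e : a₁ l = a l - c := if_pos hl
        exact mul_nonneg_of_nonpos_of_nonpos (sub_nonpos.2 (h3 (by rw [e]; ring))) (by linarith [hmin l hl])
      · have e : a₁ l = a l := if_neg hl
        rw [e, le_antisymm (hpos l) (not_lt.1 hl)]
        simp

end Vale.Agent.P166F
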