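import Vale.Agent.P166F.Ent.Bridge

/-!
The field functional along a line of field paths, and its derivative.
-/

namespace Vale.Agent.P166F

open MeasureTheory Set
open Vale.Agent.P157.Low

variable {k : ℕ}

lemma incr_nonneg {a : Fin (k + 1) → ℝ} (ha : Monotone a ∧ ∀ l, 0 ≤ a l) (l : Fin (k + 1)) :
    0 ≤ incr a l := by
  rw [incr]
  split_ifs with h
  · simpa using ha.2 l
  · exact sub_nonneg.2 (ha.1 (Fin.le_def.2 (by simp)))

lemma sum_incr (x : Fin (k + 1) → ℝ) (i : Fin (k + 1)) :
    (∑ l : Fin (k + 1), if l ≤ i then incr x l else 0) = x i := by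
  induction i using Fin.induction with
  | zero => simp [incr]
  | succ i ih =>
    have e : ∀ l : Fin (k + 1), (if l ≤ i.succ then incr x l else 0) =
        (if l ≤ i.castSucc then incr x l else 0) + if l = i.succ then incr x i.succ else 0 := fun l => by
      rcases eq_or_ne l i.succ with rfl | hne
      · rw [if_pos le_rfl, if_neg (fun h => absurd h (not_le.2 Fin.castSucc_lt_succ)), if_pos rfl,
          zero_add]
      · rw [if_neg hne, add_zero]
        have hv : (l : ℕ) ≠ i + 1 := fun h => hne (Fin.ext (by simpa using h))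
        by_cases h : (l : ℕ) ≤ i
        · rw [if_pos (Fin.le_def.2 (by simp; omega)), if_pos (Fin.le_def.2 (by simpa using h))]
        · rw [if_neg (fun hh => h (by have := Fin.le_def.1 hh; simp at this; omega)),
            if_neg (fun hh => h (by simpa using Fin.le_def.1 hh))]
    simp only [e, Finset.sum_add_distrib, Finset.sum_ite_eq', Finset.mem_univ, if_true, ih]
    simp only [incr, Fin.val_succ, Nat.succ_ne_zero, dite_false, Nat.add_sub_cancel]
    rw [show (⟨(i : ℕ), by omega⟩ : Fin (k + 1)) = i.castSucc from Fin.ext rfl]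
    ring

lemma incr_line (a b : Fin (k + 1) → ℝ) (t : ℝ) (l : Fin (k + 1)) :
    incr (fun i => a i + t * (b i - a i)) l = incr a l + t * (incr b l - incr a l) := by
  simp only [incr]
  split_ifs <;> ring

lemma tUp_full (δ : Fin (k + 1) → ℝ) (i : Fin (k + 1)) :
    tUp δ (k + 1) i = ∑ l : Fin (k + 1), if l ≤ i then δ l else 0 :=
  Finset.sum_congr rfl fun l _ => if_congr (and_iff_left (by omega)) rfl rfl

/-- The derivative of the field functional in the direction `v`. -/
noncomputable def dirDeriv (m a v : Fin (k + 1) → ℝ) : ℝ := -(∑ l, lmass m l * slopeSq m a l * v l) / 2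

/-- The field functional along a line. -/
theorem xbar_line {m a b : Fin (k + 1) → ℝ} (hm : ∀ l, 0 ≤ m l) (ha : Monotone a ∧ ∀ l, 0 ≤ a l)
    (hb : Monotone b ∧ ∀ l, 0 ≤ b l) :
    ContinuousOn (fun t : ℝ => xbar m fun i => a i + t * (b i - a i)) (Icc 0 1) ∧
      ContinuousOn (fun t : ℝ => dirDeriv m (fun i => a i + t * (b i - a i)) fun i => b i - a i)
        (Icc 0 1) ∧
      ∀ t ∈ Ioo (0 : ℝ) 1, HasDerivAt (fun t : ℝ => xbar m fun i => a i + t * (b i - a i))
        (dirDeriv m (fun i => a i + t * (b i - a i)) fun i => b i - a i) t := by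
  set δ : Fin (k + 1) → ℝ := fun l => incr b l - incr a l
  have h : Seg m (incr a) δ := ⟨hm, incr_nonneg ha, fun l => by simpa [δ] using incr_nonneg hb l⟩
  obtain ⟨S⟩ := exists_stage' h (k + 1) le_rfl
  set line : ℝ → Fin (k + 1) → ℝ := fun t i => a i + t * (b i - a i)
  have hd : ∀ t ∈ Icc (0 : ℝ) 1, dT (incr a) δ t = incr (line t) := fun t ht => funext fun l => by
    rw [h.affine ht l, incr_line]
  have hx : ∀ t ∈ Icc (0 : ℝ) 1, xbar m (line t) =
      S.F.U t 0 - (a (Fin.last k) + t * (b (Fin.last k) - a (Fin.last k))) / 2 := fun t ht => by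
    rw [xbar, S.hU, hd t ht]
    rfl
  have hG : ∀ t ∈ Icc (0 : ℝ) 1, dirDeriv m (line t) (fun i => b i - a i) =
      S.F.Ut t 0 - (b (Fin.last k) - a (Fin.last k)) / 2 := fun t ht => by
    have e1 : ∀ i, tUp δ (k + 1) i = b i - a i := fun i => by
      have e : ∀ l : Fin (k + 1), (if l ≤ i then δ l else 0) =
          (if l ≤ i then incr b l else 0) - if l ≤ i then incr a l else 0 := fun l => by
        split_ifs <;> simp [δ]
      simp only [tUp_full, e, Finset.sum_sub_distrib, sum_incr]
    have e2 : (∑ l : Fin (k + 1), if k < (l : ℕ) + (k + 1) then δ l else 0) =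
        b (Fin.last k) - a (Fin.last k) := by
      rw [← e1 (Fin.last k), tUp_full]
      exact Finset.sum_congr rfl fun l _ => if_congr (iff_of_true (by omega) (Fin.le_last l)) rfl rfl
    rw [S.slope t 0, e2, dirDeriv]
    simp only [e1, slopeSq, hd t ht]
    rw [Finset.sum_congr rfl fun i _ => mul_right_comm (lmass m i) (gUp m (incr (line t)) (k + 1) i 0) _]
    ring
  refine ⟨?_, ?_, fun t ht => ?_⟩
  · exact (((S.F.cont.comp (by fun_prop : Continuous fun t : ℝ => (t, (0 : ℝ)))).sub
      (by fun_prop : Continuous fun t : ℝ =>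
        (a (Fin.last k) + t * (b (Fin.last k) - a (Fin.last k))) / 2)).continuousOn).congr hx
  · exact (((S.F.contt.comp (by fun_prop : Continuous fun t : ℝ => (t, (0 : ℝ)))).sub
      continuous_const).continuousOn).congr hG
  · show HasDerivAt (fun t => xbar m (line t)) _ t
    rw [hG t (Ioo_subset_Icc_self ht)]
    refine HasDerivAt.congr_of_eventuallyEq ((S.F.dt t ht 0).sub
      ((((hasDerivAt_id t).mul_const (b (Fin.last k) - a (Fin.last k))).const_add
        (a (Fin.last k))).div_const 2) |>.congr_deriv (by ring)) ?_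
    filter_upwards [Ioo_mem_nhds ht.1 ht.2] with u hu using hx u (Ioo_subset_Icc_self hu)

end Vale.Agent.P166F
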